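import Mathlib

/-! Row 255 (helper56): located curvature ideals.  Pure ideal calculus. -/

set_option autoImplicit false

namespace N255.Sl

variable {A : Type*} [CommRing A]

/-- a multiplicative decreasing filtration -/
structure Fl (Wt : ℕ → Ideal A) : Prop where
  zero : Wt 0 = ⊤
  anti : ∀ {a b : ℕ}, a ≤ b → Wt b ≤ Wt a
  mul : ∀ a b, Wt a * Wt b ≤ Wt (a + b)

theorem Fl.mul_le {Wt : ℕ → Ideal A} (h : Fl Wt) {a b c : ℕ} (hc : c ≤ a + b) :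
    Wt a * Wt b ≤ Wt c := (h.mul a b).trans (h.anti hc)

theorem Fl.top {Wt : ℕ → Ideal A} (h : Fl Wt) {a : ℕ} (ha : a = 0) (J : Ideal A) : J ≤ Wt a * J := by
  rw [ha, h.zero, Ideal.top_mul]

/-- Nakayama for a family of ideals -/
theorem nak_fam {κ : Type*} {m : Ideal A} (hm : IsNilpotent m) {I J : κ → Ideal A}
    (h : ∀ R : Ideal A, (∀ k, I k ≤ J k ⊔ R) → ∀ k, I k ≤ J k ⊔ m * R) (k : κ) : I k ≤ J k := by
  obtain ⟨N, hN⟩ := hm
  have : ∀ n, ∀ k, I k ≤ J k ⊔ m ^ n := fun n => by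
    induction n with
    | zero => intro k; simp
    | succ n ih => intro k; rw [pow_succ']; exact h _ ih k
  simpa [hN] using this N k

/-- `∑ Wt (g a) * x a` -/
def Cb {α : Type*} (Wt : ℕ → Ideal A) (g : α → ℕ) (x : α → A) : Ideal A :=
  ⨆ a, Wt (g a) * Ideal.span {x a}

section Cb
variable {α : Type*} {Wt : ℕ → Ideal A} {g g' : α → ℕ} {x : α → A}

theorem le_Cb (a : α) : Wt (g a) * Ideal.span {x a} ≤ Cb Wt g x :=
  le_iSup (fun a => Wt (g a) * Ideal.span {x a}) a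

theorem Cb_le {J : Ideal A} (h : ∀ a, Wt (g a) * Ideal.span {x a} ≤ J) : Cb Wt g x ≤ J :=
  iSup_le h

theorem Fl.mul_Cb (h : Fl Wt) {n : ℕ} (hg : ∀ a, g' a ≤ n + g a) :
    Wt n * Cb Wt g x ≤ Cb Wt g' x := by
  rw [Cb, Ideal.mul_iSup]
  refine iSup_le fun a => le_trans ?_ (le_Cb a)
  rw [← mul_assoc]
  exact Ideal.mul_mono_left (h.mul_le (hg a))

theorem Fl.Cb_mono (h : Fl Wt) (hg : ∀ a, g' a ≤ g a) : Cb Wt g x ≤ Cb Wt g' x :=
  Cb_le fun a => (Ideal.mul_mono_left (h.anti (hg a))).trans (le_Cb a)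

theorem Fl.span_le_Cb (h : Fl Wt) {a : α} (ha : g a = 0) : Ideal.span {x a} ≤ Cb Wt g x :=
  (h.top ha _).trans (le_Cb a)

theorem Cb_le_span : Cb Wt g x ≤ Ideal.span (Set.range x) :=
  Cb_le fun a => Ideal.mul_le_right.trans (Ideal.span_mono (by simp))

theorem span_range_eq (x : α → A) : Ideal.span (Set.range x) = ⨆ a, Ideal.span {x a} := by
  rw [← Set.iUnion_singleton_eq_range, Ideal.span_iUnion]

end Cb

/-- zones with located ideals -/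
structure Zn (A : Type*) [CommRing A] (κ α ι : Type*) where
  Wt : ℕ → Ideal A
  m : Ideal A
  μ : ℕ
  γ : ℕ
  pos : κ → ℕ
  pa : α → ℕ
  sl : κ → ι
  I : κ → Ideal A
  E' : κ → Ideal A
  IK : ι → Ideal A
  ε : α → A
  E : α → A

namespace Zn

variable {κ α ι : Type*} (Z : Zn A κ α ι)

/-- the hypotheses on the zones -/
structure Ok : Prop where
  fl : Fl Z.Wt
  nil : IsNilpotent Z.m
  mle : Z.m ≤ Z.Wt Z.μ
  gap : 3 * Z.γ < Z.μ
  hI : ∀ k, Z.I k ≤ Z.E' k ⊔ ⨆ (a) (_ : Z.pos k ≤ Z.pa a + Z.γ), Ideal.span {Z.ε a}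
  hE1 : ∀ k, Z.E' k ≤ (⨆ (a) (_ : Z.pa a ≤ Z.pos k + Z.γ), Ideal.span {Z.E a}) ⊔
    Z.m * ⨆ (k') (_ : Z.pos k' ≤ Z.pos k + Z.γ), Z.I k'
  hE2 : ∀ k, Z.γ < Z.pos k → Z.E' k ≤ Z.IK (Z.sl k) ⊔
    Z.m * ⨆ (k') (_ : Z.pos k ≤ Z.pos k' + Z.γ ∧ (Z.sl k' = Z.sl k ∨ Z.pos k' ≤ Z.γ)), Z.I k'

/-- the ideal of the auxiliary variables -/
def Eps : Ideal A := Ideal.span (Set.range Z.ε)

/-- generators seen from the position `n` -/
def M (n : ℕ) : Ideal A := Cb Z.Wt (fun a => Z.pa a - (n + Z.γ)) Z.E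

/-- the located ideal -/
def Loc : Ideal A := Z.M (2 * Z.γ)

/-- strictly monotone coefficients -/
def At (a : α) : Ideal A := Cb Z.Wt (fun b => Z.pa b - Z.pa a + 1) Z.E

/-- the macroscopic curvature ideal -/
def T : Ideal A := ⨆ (k) (_ : Z.pos k ≤ Z.γ), Z.I k

/-- the non deep part at the position `n` -/
def N (n s : ℕ) : Ideal A :=
  Cb Z.Wt (fun a => n - (Z.pa a + (s + Z.γ))) Z.ε ⊔ Z.Wt (n - (s + Z.γ)) * Z.T

/-- the quadratic errors -/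
def Qd : Ideal A := ⨆ k, Z.E' k * Z.E' k ⊔ Z.m * (Z.I k * Z.I k)

/-- the remainder after removing the deep squares -/
def Rs : Ideal A := (⨆ a, Ideal.span {Z.ε a} * Z.At a) ⊔ Z.Loc * Z.Loc ⊔ Z.Eps * Z.Eps

variable {Z} (h : Z.Ok)
include h

theorem Ok.M_mono {n n' : ℕ} (hn : n ≤ n') : Z.M n ≤ Z.M n' := h.fl.Cb_mono fun a => by omega

theorem Ok.m_M {n n' : ℕ} (hn : n' ≤ n + Z.γ) : Z.m * Z.M n' ≤ Z.M n := by
  have := h.gap
  exact (Ideal.mul_mono_left h.mle).trans (h.fl.mul_Cb fun a => by omega)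

theorem Ok.E'_step {R : Ideal A} (hR : ∀ k, Z.I k ≤ (Z.M (Z.pos k) ⊔ Z.Eps) ⊔ R) (k : κ) :
    Z.E' k ≤ (Z.M (Z.pos k) ⊔ Z.m * Z.Eps) ⊔ Z.m * R := by
  refine (h.hE1 k).trans (sup_le (iSup₂_le fun a ha => ?_) ?_)
  · exact le_sup_of_le_left (le_sup_of_le_left (h.fl.span_le_Cb (by omega)))
  · simp only [Ideal.mul_iSup]
    refine iSup₂_le fun k' hk' => (Ideal.mul_mono_right (hR k')).trans ?_
    rw [Ideal.mul_sup, Ideal.mul_sup]
    exact sup_le_sup_right (sup_le_sup_right (h.m_M hk') _) _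

theorem Ok.I_le (k : κ) : Z.I k ≤ Z.M (Z.pos k) ⊔ Z.Eps := by
  refine nak_fam h.nil (J := fun k => Z.M (Z.pos k) ⊔ Z.Eps) (fun R hR k => ?_) k
  refine (h.hI k).trans (sup_le ((h.E'_step hR k).trans ?_) (iSup₂_le fun a _ => ?_))
  · exact sup_le_sup_right (sup_le_sup_left Ideal.mul_le_right _) _
  · exact le_sup_of_le_left (le_sup_of_le_right (Ideal.span_mono (by simp)))

theorem Ok.E'_le (k : κ) : Z.E' k ≤ Z.M (Z.pos k) ⊔ Z.m * Z.Eps := by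
  simpa using h.E'_step (R := ⊥) (fun k => by simpa using h.I_le k) k

theorem Ok.T_le : Z.T ≤ Z.M Z.γ ⊔ Z.Eps :=
  iSup₂_le fun k hk => (h.I_le k).trans (sup_le_sup_right (h.M_mono hk) _)

theorem Ok.T_le_Loc : Z.T ≤ Z.Loc ⊔ Z.Eps :=
  h.T_le.trans (sup_le_sup_right (h.M_mono (by omega)) _)

theorem Ok.N_mono {n n' s s' : ℕ} (hn : n' + s ≤ n + s') : Z.N n s ≤ Z.N n' s' :=
  sup_le_sup (h.fl.Cb_mono fun a => by omega) (Ideal.mul_mono_left (h.fl.anti (by omega)))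

theorem Ok.m_N {n : ℕ} : Z.m * Z.N n Z.γ ≤ Z.N n 0 := by
  have := h.gap
  refine (Ideal.mul_mono_left h.mle).trans ?_
  rw [N, Ideal.mul_sup, ← mul_assoc]
  exact sup_le_sup (h.fl.mul_Cb fun a => by omega) (Ideal.mul_mono_left (h.fl.mul_le (by omega)))

theorem Ok.mac {k : κ} (hk : Z.pos k ≤ Z.γ) : Z.I k ≤ Z.N (Z.pos k) 0 :=
  le_sup_of_le_right ((le_iSup₂_of_le (f := fun k (_ : Z.pos k ≤ Z.γ) => Z.I k) k hk le_rfl).trans
    (h.fl.top (by omega) _))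

theorem Ok.E'_step2 {R : Ideal A} (hR : ∀ k, Z.I k ≤ (Z.IK (Z.sl k) ⊔ Z.N (Z.pos k) 0) ⊔ R) {k : κ}
    (hk : Z.γ < Z.pos k) : Z.E' k ≤ (Z.IK (Z.sl k) ⊔ Z.m * Z.N (Z.pos k) Z.γ) ⊔ Z.m * R := by
  refine (h.hE2 k hk).trans (sup_le (le_sup_of_le_left le_sup_left) ?_)
  simp only [Ideal.mul_iSup]
  refine iSup₂_le fun k' hk' => ?_
  have h1 : Z.N (Z.pos k') 0 ≤ Z.N (Z.pos k) Z.γ := h.N_mono (by omega)
  rcases hk'.2 with e | e
  · refine (Ideal.mul_mono_right (hR k')).trans ?_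
    rw [Ideal.mul_sup, Ideal.mul_sup, e]
    exact sup_le_sup_right (sup_le_sup Ideal.mul_le_right (Ideal.mul_mono_right h1)) _
  · exact le_sup_of_le_left (le_sup_of_le_right (Ideal.mul_mono_right ((h.mac e).trans h1)))

theorem Ok.I_le2 (k : κ) : Z.I k ≤ Z.IK (Z.sl k) ⊔ Z.N (Z.pos k) 0 := by
  refine nak_fam h.nil (J := fun k => Z.IK (Z.sl k) ⊔ Z.N (Z.pos k) 0) (fun R hR k => ?_) k
  rcases le_or_gt (Z.pos k) Z.γ with hk | hk
  · exact le_sup_of_le_left (le_sup_of_le_right (h.mac hk))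
  refine (h.hI k).trans (sup_le ((h.E'_step2 hR hk).trans ?_) (iSup₂_le fun a ha => ?_))
  · exact sup_le_sup_right (sup_le_sup_left h.m_N _) _
  · exact le_sup_of_le_left (le_sup_of_le_right (le_sup_of_le_left
      (h.fl.span_le_Cb (by omega))))

theorem Ok.E'_le2 {k : κ} (hk : Z.γ < Z.pos k) :
    Z.E' k ≤ Z.IK (Z.sl k) ⊔ Z.m * Z.N (Z.pos k) Z.γ := by
  simpa using h.E'_step2 (R := ⊥) (fun k => by simpa using h.I_le2 k) hk

omit h in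
theorem Loc_sq : Z.Loc * Z.Loc ≤ Z.Rs := le_sup_of_le_left le_sup_right

omit h in
theorem Eps_sq : Z.Eps * Z.Eps ≤ Z.Rs := le_sup_right

omit h in
theorem eps_At (a : α) : Ideal.span {Z.ε a} * Z.At a ≤ Z.Rs :=
  le_sup_of_le_left (le_sup_of_le_left (le_iSup (fun a => Ideal.span {Z.ε a} * Z.At a) a))

theorem Ok.m_Loc (a : α) : Z.m * Z.Loc ≤ Z.At a := by
  have := h.gap
  exact (Ideal.mul_mono_left h.mle).trans (h.fl.mul_Cb fun a => by omega)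

theorem Ok.m_Eps_Loc : Z.m * Z.Eps * Z.Loc ≤ Z.Rs := by
  rw [mul_right_comm, mul_comm, Eps, span_range_eq, Ideal.iSup_mul]
  exact iSup_le fun a => (Ideal.mul_mono_right (h.m_Loc a)).trans (eps_At a)

theorem Ok.m_sq : Z.m * ((Z.Loc ⊔ Z.Eps) * (Z.Loc ⊔ Z.Eps)) ≤ Z.Rs := by
  simp only [Ideal.mul_sup, Ideal.sup_mul, sup_le_iff]
  refine ⟨⟨Ideal.mul_le_right.trans Loc_sq, ?_⟩, ?_, Ideal.mul_le_right.trans Eps_sq⟩
  · rw [← mul_assoc]; exact h.m_Eps_Loc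
  · rw [mul_comm Z.Loc, ← mul_assoc]; exact h.m_Eps_Loc

theorem Ok.N_le {n s : ℕ} : Z.N n s ≤ Z.Loc ⊔ Z.Eps :=
  sup_le (le_sup_of_le_right Cb_le_span) (Ideal.mul_le_right.trans h.T_le_Loc)

theorem Ok.m_N_M {n : ℕ} : Z.m * (Z.N n Z.γ * Z.M n) ≤ Z.Rs := by
  have := h.gap
  rw [N, Ideal.sup_mul, Ideal.mul_sup]
  refine sup_le ?_ ?_
  · rw [Cb, Ideal.iSup_mul, Ideal.mul_iSup]
    refine iSup_le fun a => le_trans ?_ (eps_At a)
    rw [mul_right_comm, ← mul_assoc, ← mul_assoc, mul_comm _ (Ideal.span {Z.ε a})]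
    refine Ideal.mul_mono_right ((Ideal.mul_mono_left ((Ideal.mul_mono_left h.mle).trans
      (h.fl.mul _ _))).trans (h.fl.mul_Cb fun b => by omega))
  · refine le_trans (Ideal.mul_mono_right ?_) h.m_sq
    rw [mul_comm _ Z.T, mul_assoc]
    exact Ideal.mul_mono h.T_le_Loc (le_sup_of_le_left (h.fl.mul_Cb fun b => by omega))

theorem Ok.m_N_X {n : ℕ} : Z.m * (Z.N n Z.γ * (Z.M n ⊔ Z.Eps)) ≤ Z.Rs := by
  rw [Ideal.mul_sup, Ideal.mul_sup]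
  exact sup_le h.m_N_M ((Ideal.mul_mono_right (Ideal.mul_mono h.N_le le_sup_right)).trans h.m_sq)

omit h in
/-- the product lemma -/
theorem mul_split {X K N Y : Ideal A} (h1 : X ≤ K ⊔ N) (h2 : X ≤ Y) :
    X * X ≤ K * K ⊔ N * Y ⊔ N * N := by
  refine Ideal.mul_le.2 fun u hu v hv => ?_
  obtain ⟨u1, hu1, u2, hu2, e1⟩ := Submodule.mem_sup.1 (h1 hu)
  obtain ⟨v1, hv1, v2, hv2, e2⟩ := Submodule.mem_sup.1 (h1 hv)
  have : u * v = (u1 * v1 + (u2 * v + v2 * u)) - u2 * v2 := by rw [← e1, ← e2]; ring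
  rw [this]
  exact sub_mem (Ideal.mem_sup_left (Submodule.add_mem_sup (Ideal.mul_mem_mul hu1 hv1)
    (add_mem (Ideal.mul_mem_mul hu2 (h2 hv)) (Ideal.mul_mem_mul hv2 (h2 hu)))))
    (Ideal.mem_sup_right (Ideal.mul_mem_mul hu2 hv2))

/-- **the located decomposition** -/
theorem Ok.Qd_le : Z.Qd ≤ (⨆ e, Z.IK e * Z.IK e) ⊔ Z.Rs := by
  refine iSup_le fun k => ?_
  rcases le_or_gt (Z.pos k) Z.γ with hk | hk
  · have h1 : Z.M (Z.pos k) ≤ Z.Loc := h.M_mono (by omega)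
    refine le_sup_of_le_right (sup_le ?_ ?_)
    · have h2 : Z.E' k ≤ Z.Loc ⊔ Z.m * Z.Eps := (h.E'_le k).trans (sup_le_sup_right h1 _)
      refine (Ideal.mul_mono h2 h2).trans ?_
      simp only [Ideal.mul_sup, Ideal.sup_mul, sup_le_iff]
      refine ⟨⟨Loc_sq, h.m_Eps_Loc⟩, ?_, (Ideal.mul_mono Ideal.mul_le_right Ideal.mul_le_right).trans
        Eps_sq⟩
      rw [mul_comm]; exact h.m_Eps_Loc
    · have h2 : Z.I k ≤ Z.Loc ⊔ Z.Eps := (h.I_le k).trans (sup_le_sup_right h1 _)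
      exact (Ideal.mul_mono_right (Ideal.mul_mono h2 h2)).trans h.m_sq
  have h0 : Z.IK (Z.sl k) * Z.IK (Z.sl k) ≤ (⨆ e, Z.IK e * Z.IK e) ⊔ Z.Rs :=
    le_sup_of_le_left (le_iSup (fun e => Z.IK e * Z.IK e) _)
  have h3 : Z.m * (Z.N (Z.pos k) Z.γ * Z.N (Z.pos k) Z.γ) ≤ Z.Rs :=
    (Ideal.mul_mono_right (Ideal.mul_mono h.N_le h.N_le)).trans h.m_sq
  refine sup_le ?_ ?_
  · refine (mul_split (h.E'_le2 hk) ((h.E'_le k).trans
      (sup_le_sup_left Ideal.mul_le_right _))).trans (sup_le (sup_le h0 ?_) ?_)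
    · rw [mul_assoc]; exact le_sup_of_le_right h.m_N_X
    · refine le_sup_of_le_right (le_trans ?_ h3)
      rw [mul_assoc]
      exact Ideal.mul_mono_right (Ideal.mul_mono_right Ideal.mul_le_right)
  · have h4 : Z.N (Z.pos k) 0 ≤ Z.N (Z.pos k) Z.γ := h.N_mono (by omega)
    refine (Ideal.mul_mono_right (mul_split ((h.I_le2 k).trans (sup_le_sup_left h4 _))
      (h.I_le k))).trans ?_
    rw [Ideal.mul_sup, Ideal.mul_sup]
    refine sup_le (sup_le ?_ (le_sup_of_le_right h.m_N_X)) (le_sup_of_le_right h3)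
    exact le_trans Ideal.mul_le_right h0

end Zn

end N255.Sl
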