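import Crest.Agent.N255.Sl.Loc
import Crest.Agent.N255.Tg.Ph

/-! Row 255 (helper56): step 1 (monotone absorption of the deep squares) and step 2 (derivatives
along the auxiliary variables, Neumann series). -/

set_option autoImplicit false

noncomputable section

namespace N255.Sl

open N255.Dr N255.Dr.O Crest.Agent.N255.Tg

section Neu
variable {A : Type*} [CommRing A] {α : Type*} {W : ℕ → Ideal A}

/-- Neumann series for strictly monotone matrices -/
theorem Fl.neu (h : Fl W) {n : ℕ} (hn : W n = ⊥) {pa : α → ℕ} {E : α → A} {Q : α → Ideal A}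
    (hE : ∀ a, E a ∈ Q a ⊔ Cb W (fun b => pa b - pa a + 1) E) (c : ℕ) :
    Cb W (fun a => pa a - c) E ≤ ⨆ a, W (pa a - c) * Q a := by
  have key : ∀ j, Cb W (fun a => pa a - c + j) E ≤
      (⨆ a, W (pa a - c) * Q a) ⊔ Cb W (fun a => pa a - c + (j + 1)) E := fun j =>
    Cb_le fun a => by
      refine (Ideal.mul_mono_right ((Ideal.span_singleton_le_iff_mem _).2 (hE a))).trans ?_
      rw [Ideal.mul_sup]
      exact sup_le_sup ((Ideal.mul_mono_left (h.anti (by omega))).trans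
        (le_iSup (fun a => W (pa a - c) * Q a) a)) (h.mul_Cb fun b => by omega)
  have : ∀ j, Cb W (fun a => pa a - c) E ≤
      (⨆ a, W (pa a - c) * Q a) ⊔ Cb W (fun a => pa a - c + j) E := fun j => by
    induction j with
    | zero => exact le_sup_right
    | succ j ih => exact ih.trans (sup_le le_sup_left (key j))
  refine (this n).trans (sup_le le_rfl (Cb_le fun a => ?_))
  refine Ideal.mul_le_left.trans ((h.anti (a := n) (by omega)).trans ?_)
  rw [hn]; exact bot_le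

end Neu

section Der
variable {K A A0 : Type*} [CommRing K] [CommRing A] [CommRing A0] [Algebra K A] [Algebra K A0]

/-- the elements whose value and derivative lie in `R` after `π` -/
def Dk (π : A →ₐ[K] A0) (D : Derivation K A A) (R : Ideal A0) : Ideal A where
  carrier := {f | π f ∈ R ∧ π (D f) ∈ R}
  add_mem' := fun h h' => ⟨by simpa using add_mem h.1 h'.1, by simpa using add_mem h.2 h'.2⟩
  zero_mem' := by simp
  smul_mem' := fun c f h => ⟨by simpa using R.mul_mem_left _ h.1, by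
    simpa using add_mem (R.mul_mem_left _ h.2) (R.mul_mem_right _ h.1)⟩

variable {π : A →ₐ[K] A0} {D : Derivation K A A} {R R' : Ideal A0}

theorem mem_Dk {f : A} : f ∈ Dk π D R ↔ π f ∈ R ∧ π (D f) ∈ R := Iff.rfl

theorem mul_le_Dk {I J : Ideal A} (h0 : ∀ u ∈ I, ∀ v ∈ J, π u * π v ∈ R)
    (h1 : ∀ u ∈ I, ∀ v ∈ J, π u * π (D v) ∈ R) (h2 : ∀ u ∈ I, ∀ v ∈ J, π v * π (D u) ∈ R) :
    I * J ≤ Dk π D R :=
  Ideal.mul_le.2 fun u hu v hv => ⟨by simpa using h0 u hu v hv, by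
    simpa using add_mem (h1 u hu v hv) (h2 u hu v hv)⟩

theorem map_Cb {α : Type*} {W : ℕ → Ideal A} {W0 : ℕ → Ideal A0} (hW : ∀ n, ∀ f ∈ W n, π f ∈ W0 n)
    {g : α → ℕ} {x : α → A} {f : A} (hf : f ∈ Cb W g x) : π f ∈ Cb W0 g fun a => π (x a) := by
  have : Cb W g x ≤ (Cb W0 g fun a => π (x a)).comap π := Cb_le fun a =>
    Ideal.mul_le.2 fun u hu v hv => by
      obtain ⟨c, rfl⟩ := Ideal.mem_span_singleton'.1 hv
      rw [Ideal.mem_comap, map_mul, map_mul]
      exact le_Cb a (Ideal.mul_mem_mul (hW _ _ hu)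
        (Ideal.mul_mem_left _ _ (Ideal.mem_span_singleton_self _)))
  exact this hf

namespace Zn

variable {κ α ι : Type*} {Z : Zn A κ α ι} {W0 : ℕ → Ideal A0}

theorem pi_Eps (hε : ∀ b, π (Z.ε b) = 0) {f : A} (hf : f ∈ Z.Eps) : π f = 0 := by
  have : Z.Eps ≤ RingHom.ker π := Ideal.span_le.2 (by rintro _ ⟨b, rfl⟩; exact hε b)
  exact this hf

variable (Z) in
/-- the located ideal after `π` -/
def Loc0 (π : A →ₐ[K] A0) (W0 : ℕ → Ideal A0) : Ideal A0 :=
  Cb W0 (fun a => Z.pa a - 3 * Z.γ) fun a => π (Z.E a)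

variable (Z) in
/-- strictly monotone combinations after `π` -/
def At0 (π : A →ₐ[K] A0) (W0 : ℕ → Ideal A0) (a : α) : Ideal A0 :=
  Cb W0 (fun b => Z.pa b - Z.pa a + 1) fun a => π (Z.E a)

theorem pi_Loc (hW : ∀ n, ∀ f ∈ Z.Wt n, π f ∈ W0 n) {f : A} (hf : f ∈ Z.Loc) :
    π f ∈ Z.Loc0 π W0 := by
  have := map_Cb hW hf
  simpa only [Loc0, show 2 * Z.γ + Z.γ = 3 * Z.γ by ring] using this

/-- the value of the remainder -/
theorem pi_Rs (hW : ∀ n, ∀ f ∈ Z.Wt n, π f ∈ W0 n) (hε : ∀ b, π (Z.ε b) = 0) {f : A}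
    (hf : f ∈ Z.Rs) : π f ∈ Z.Loc0 π W0 * Z.Loc0 π W0 := by
  have : Z.Rs ≤ (Z.Loc0 π W0 * Z.Loc0 π W0).comap π := by
    refine sup_le (sup_le (iSup_le fun a => Ideal.mul_le.2 fun u hu v _ => ?_)
      (Ideal.mul_le.2 fun u hu v hv => ?_)) (Ideal.mul_le.2 fun u hu v _ => ?_)
    · rw [Ideal.mem_comap, map_mul, pi_Eps hε (Ideal.span_mono (by simp) hu), zero_mul]
      exact zero_mem _
    · rw [Ideal.mem_comap, map_mul]
      exact Ideal.mul_mem_mul (pi_Loc hW hu) (pi_Loc hW hv)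
    · rw [Ideal.mem_comap, map_mul, pi_Eps hε hu, zero_mul]
      exact zero_mem _
  exact this hf

/-- the derivative of the remainder -/
theorem Ok.der_Rs (h : Z.Ok) (h0 : Fl W0) (hW : ∀ n, ∀ f ∈ Z.Wt n, π f ∈ W0 n)
    (hε : ∀ b, π (Z.ε b) = 0) {a : α} (hD : ∀ b, b ≠ a → π (D (Z.ε b)) = 0)
    (hE : ∀ b, π (Z.E b) ∈ W0 Z.μ ∧ π (D (Z.E b)) ∈ W0 Z.μ) {f : A} (hf : f ∈ Z.Rs) :
    π (D f) ∈ Z.At0 π W0 a := by
  have g := h.gap
  have h1 : Z.Loc ≤ Dk π D (W0 Z.μ) :=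
    Cb_le_span.trans (Ideal.span_le.2 (by rintro _ ⟨b, rfl⟩; exact hE b))
  have h2 : Z.Loc0 π W0 * W0 Z.μ ≤ Z.At0 π W0 a := by
    rw [mul_comm]; exact h0.mul_Cb fun b => by omega
  have : Z.Rs ≤ Dk π D (Z.At0 π W0 a) := by
    refine sup_le (sup_le (iSup_le fun b => ?_) (mul_le_Dk (fun u hu v hv => ?_)
      (fun u hu v hv => ?_) fun u hu v hv => ?_)) (mul_le_Dk (fun u hu v hv => ?_)
      (fun u hu v hv => ?_) fun u hu v hv => ?_)
    · have e : ∀ u ∈ Ideal.span {Z.ε b}, π u = 0 := fun u hu =>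
        pi_Eps hε (Ideal.span_mono (by simp) hu)
      refine mul_le_Dk (fun u hu v _ => by simp [e u hu]) (fun u hu v _ => by simp [e u hu])
        fun u hu v hv => ?_
      rcases eq_or_ne b a with rfl | hb
      · exact Ideal.mul_mem_right _ _ (map_Cb hW hv)
      · obtain ⟨c, rfl⟩ := Ideal.mem_span_singleton'.1 hu
        simp [hε, hD b hb]
    · exact h2 (Ideal.mul_mem_mul (pi_Loc hW hu) (h1 hv).1)
    · exact h2 (Ideal.mul_mem_mul (pi_Loc hW hu) (h1 hv).2)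
    · exact h2 (Ideal.mul_mem_mul (pi_Loc hW hv) (h1 hu).2)
    · simp [pi_Eps hε hu]
    · simp [pi_Eps hε hu]
    · simp [pi_Eps hε hv]
  exact (this hf).2

/-- one row of the system: the generator `E a` is the derivative of the action -/
theorem Ok.row [Fintype α] (h : Z.Ok) (h0 : Fl W0) (hW : ∀ n, ∀ f ∈ Z.Wt n, π f ∈ W0 n)
    (hε : ∀ b, π (Z.ε b) = 0) {a : α} (hD : ∀ b, b ≠ a → π (D (Z.ε b)) = 0)
    (hD1 : π (D (Z.ε a)) = 1) (hE : ∀ b, π (Z.E b) ∈ W0 Z.μ ∧ π (D (Z.E b)) ∈ W0 Z.μ)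
    {H : Ideal A} {Φ : A} (hΦ : Φ - ∑ b, Z.ε b * Z.E b ∈ Z.Rs ⊔ H) :
    ∃ r ∈ H, π (D Φ) - π (D r) - π (Z.E a) ∈ Z.At0 π W0 a := by
  obtain ⟨f, hf, r, hr, e⟩ := Submodule.mem_sup.1 hΦ
  refine ⟨r, hr, ?_⟩
  have e1 : π (D (∑ b, Z.ε b * Z.E b)) = π (Z.E a) := by
    rw [map_sum, map_sum, Finset.sum_eq_single a]
    · simp [hε, hD1]
    · intro b _ hb; simp [hε, hD b hb]
    · simp
  have e2 : Φ = f + r + ∑ b, Z.ε b * Z.E b := by rw [e]; ring
  have := h.der_Rs h0 hW hε hD hE hf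
  rw [e2, map_add, map_add, map_add, map_add, e1]
  convert this using 1
  ring

end Zn

end Der

section One
variable {p : ℕ} {K : Type} [CommRing K] [Fact p.Prime] [Fact ((p : K) = 0)] {s : Type} [Fintype s]
  {A : Type*} [CommRing A] [Algebra K A]

/-- the detected ideal: `Y x = ⊤` for ordinary variables, `(y)` for `y`, `⊥` for frozen ones -/
def Lj (Y : s → Ideal A) (d : s → A) : Ideal A := ⨆ x, Y x * Ideal.span {d x}

omit [Fintype s] in
theorem le_Lj (Y : s → Ideal A) (d : s → A) (x : s) : Y x * Ideal.span {d x} ≤ Lj Y d :=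
  le_iSup (fun x => Y x * Ideal.span {d x}) x

/-- the data of step 1 in one slot: `S x` = allowed shifts of `x`, `d x` = partial derivatives -/
structure St (m : Ideal A) (Y S : s → Ideal A) (d : s → A) : Prop where
  ord : ∀ x, (Y x = ⊤ ∧ d x ∈ m * Lj Y d ⊔ S x) ∨ (Y x ≤ m ∧ Y x * Lj Y d ≤ S x)
  tot : ∀ x x', Y x = ⊤ → Y x' = ⊤ → S x ≤ S x' ∨ S x' ≤ S x

omit [Fintype s] in
theorem St.sq {m : Ideal A} {Y S : s → Ideal A} {d : s → A} (h : St m Y S d) (hm : IsNilpotent m) :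
    Lj Y d * Lj Y d ≤ Lj (fun x => Y x * Lj Y d ⊓ S x) d := by
  set L := Lj Y d
  have hd : ∀ x, Y x = ⊤ → d x ∈ L := fun x hx =>
    le_Lj Y d x (by rw [hx, Ideal.top_mul]; exact Ideal.mem_span_singleton_self _)
  refine nak hm ?_
  have a1 : ∀ x, Y x * L ≤ S x → Y x * Ideal.span {d x} * L ≤
      Lj (fun x => Y x * L ⊓ S x) d ⊔ m * (L * L) := fun x hx => by
    rw [mul_right_comm]
    exact le_sup_of_le_left ((Ideal.mul_mono_left (le_inf le_rfl hx)).trans
      (le_Lj (fun x => Y x * L ⊓ S x) d x))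
  have a2 : ∀ x x', Y x = ⊤ → Y x' = ⊤ → d x' ∈ m * L ⊔ S x' → S x' ≤ S x →
      Y x * Ideal.span {d x} * (Y x' * Ideal.span {d x'}) ≤
      Lj (fun x => Y x * L ⊓ S x) d ⊔ m * (L * L) := fun x x' hx hx' h1 h2 => by
    obtain ⟨n, hn, k, hk, e⟩ := Submodule.mem_sup.1 h1
    have hkL : k ∈ L := by
      rw [eq_sub_of_add_eq' e]; exact sub_mem (hd x' hx') (Ideal.mul_le_right hn)
    rw [hx, hx', Ideal.top_mul, Ideal.top_mul, Ideal.span_singleton_mul_span_singleton,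
      Ideal.span_singleton_le_iff_mem, ← e, mul_add, add_comm, mul_comm _ k, mul_comm _ n]
    refine Submodule.add_mem_sup (le_Lj (fun x => Y x * L ⊓ S x) d x (Ideal.mul_mem_mul
      ⟨by rw [hx, Ideal.top_mul]; exact hkL, h2 hk⟩ (Ideal.mem_span_singleton_self _))) ?_
    rw [← mul_assoc]
    exact Ideal.mul_mem_mul hn (hd x hx)
  have e : L * L = ⨆ x, ⨆ x', Y x * Ideal.span {d x} * (Y x' * Ideal.span {d x'}) := by
    conv_lhs => simp only [L, Lj, Ideal.iSup_mul, Ideal.mul_iSup]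
    exact iSup_comm
  rw [e]
  refine iSup₂_le fun x x' => ?_
  rw [← e]
  rcases h.ord x with hx | hx
  · rcases h.ord x' with hx' | hx'
    · rcases h.tot x x' hx.1 hx'.1 with h1 | h1
      · rw [mul_comm]; exact a2 x' x hx'.1 hx.1 hx.2 h1
      · exact a2 x x' hx.1 hx'.1 hx'.2 h1
    · rw [mul_comm]
      exact (Ideal.mul_mono_right (le_Lj Y d x)).trans (a1 x' hx'.2)
  · exact (Ideal.mul_mono_right (le_Lj Y d x')).trans (a1 x hx.2)

/-- **Step 1**: squares of the detected ideal are absorbed by monotone shifts -/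
theorem step1 {m H : Ideal A} (hm : IsNilpotent m) (hp : ∀ x ∈ m, x ^ p = 0) {W : O p K s}
    {φ : O p K s →ₐ[K] A} (hφ : ∀ x, φ (z x) ∈ m) {Y S : s → Ideal A}
    (h : St m Y S fun x => φ (pd x W)) (hL : ∀ x, Y x = ⊤ → φ (pd x W) ∈ m)
    (hes : ∀ x x', Y x = ⊤ → Y x' = ⊤ → pd x (pd x' W) ∈ mx) {P : A}
    (hP : P ∈ (Lj Y fun x => φ (pd x W)) * (Lj Y fun x => φ (pd x W)) ⊔ H) :
    ∃ ψ : O p K s →ₐ[K] A, (∀ x, ψ (z x) - φ (z x) ∈ Y x * (Lj Y fun x => φ (pd x W)) ⊓ S x) ∧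
      ψ W - φ W - P ∈ H := by
  have sq0 := h.sq hm
  have hLm : (Lj Y fun x => φ (pd x W)) ≤ m := iSup_le fun x => by
    rcases h.ord x with hx | hx
    · exact Ideal.mul_le_right.trans ((Ideal.span_singleton_le_iff_mem _).2 (hL x hx.1))
    · exact Ideal.mul_le_left.trans hx.1
  have hY : ∀ x, Y x = ⊤ ∨ Y x ≤ m := fun x => (h.ord x).imp And.left And.left
  clear h
  generalize (Lj Y fun x => φ (pd x W)) = L at *
  have sq : ∀ k, m ^ k * (L * L) ≤ EE (fun x => m ^ k * (Y x * L ⊓ S x)) (fun x => φ (pd x W)) H :=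
    fun k => by
    refine (Ideal.mul_mono_right sq0).trans ?_
    rw [Lj, Ideal.mul_iSup]
    refine iSup_le fun x => ?_
    rw [← mul_assoc]
    exact le_EE (fun x => m ^ k * (Y x * L ⊓ S x)) (fun x => φ (pd x W)) H x
  obtain ⟨N, hN⟩ := id hm
  obtain ⟨ψ, h1, h2⟩ := toug_w (GO := triv K (O p K s)) (G := triv K A) (d := fun _ => ())
    (D := ()) (W := W) (fun _ => rfl) rfl (I := fun _ => m) (fun _ => hp)
    (J := fun k x => m ^ k * (Y x * L ⊓ S x)) (H := H) (fun _ _ => triv_id _) (triv_id _)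
    (fun k x => by rw [pow_zero, one_mul]; exact Ideal.mul_le_right)
    (fun x => Ideal.mul_le_right.trans (inf_le_left.trans (Ideal.mul_le_right.trans hLm)))
    (φ := φ) (fun u => ⟨rfl, hφ u⟩) (fun k x y => by
      refine le_trans ?_ (sq (k + 1))
      have a : Y x * Y y * Car (fun _ => m) (pd x (pd y W)) ≤ m := by
        rcases hY x with hx | hx
        · rcases hY y with hy | hy
          · exact Ideal.mul_le_right.trans (Car_mx (fun _ => le_rfl) (hes x y hx hy))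
          · exact Ideal.mul_le_left.trans (Ideal.mul_le_right.trans hy)
        · exact Ideal.mul_le_left.trans (Ideal.mul_le_left.trans hx)
      calc m ^ k * (Y x * L ⊓ S x) * (m ^ 0 * (Y y * L ⊓ S y)) * Car (fun _ => m) (pd x (pd y W))
          ≤ m ^ k * (Y x * L) * (m ^ 0 * (Y y * L)) * Car (fun _ => m) (pd x (pd y W)) :=
            Ideal.mul_mono_left (Ideal.mul_mono (Ideal.mul_mono_right inf_le_left)
              (Ideal.mul_mono_right inf_le_left))
        _ = m ^ k * (Y x * Y y * Car (fun _ => m) (pd x (pd y W))) * (L * L) := by ring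
        _ ≤ m ^ (k + 1) * (L * L) := by
            rw [pow_succ]; exact Ideal.mul_mono_left (Ideal.mul_mono_right a))
    (P := P) rfl ((sup_le (by simpa using sq 0) (H_le_EE _ _ _) : L * L ⊔ H ≤ _) hP) N
  refine ⟨ψ, fun x => by simpa using (h1 x).2, ?_⟩
  have : EE (fun x => m ^ N * (Y x * L ⊓ S x)) (fun x => φ (pd x W)) H ≤ H :=
    sup_le (iSup_le fun x => by simp [hN]) le_rfl
  exact this h2

end One

end N255.Sl

end
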