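import Crest.Agent.N255.Sl.PB
import Crest.Agent.N255.Tg.PZ
import Crest.Agent.N255.Io.Crd

/-! Row 255 (helper56): the quadratic part of the vertex potential after step B. -/

set_option autoImplicit false

noncomputable section

namespace N255.Sl

open N255.Dr N255.Dr.O Crest.Agent.N255.Tg N255.Core Sum
open Crest.Agent.N255.Io (Zs z_Zs Zs_le Zs_mx map_Zs pd_pow)

section Jet

variable {p : ℕ} {K : Type} [CommRing K] [Fact p.Prime] [Fact ((p : K) = 0)] {σ τ : Type}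

omit [Fact p.Prime] in
theorem pd_Zs {S : Set σ} {u : σ} (hu : u ∉ S) {g : O p K σ} (hg : g ∈ Zs p K S) :
    pd u g ∈ Zs p K S := by
  induction hg using Submodule.span_induction with
  | mem x hx =>
    obtain ⟨a, ha, rfl⟩ := hx
    rw [pd_z_ne (by rintro rfl; exact hu ha)]
    exact zero_mem _
  | zero => simp
  | add x y _ _ h1 h2 => rw [map_add]; exact add_mem h1 h2
  | smul a x hx h1 =>
    rw [smul_eq_mul, Derivation.leibniz, smul_eq_mul, smul_eq_mul]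
    exact add_mem (Ideal.mul_mem_left _ _ h1) (Ideal.mul_mem_right _ _ hx)

omit [Fact p.Prime] in
theorem pd_mul_mem {I J L : Ideal (O p K σ)} {u : σ} (h1 : ∀ f ∈ I, ∀ g ∈ J, f * pd u g ∈ L)
    (h2 : ∀ f ∈ I, ∀ g ∈ J, g * pd u f ∈ L) {x : O p K σ} (hx : x ∈ I * J) : pd u x ∈ L := by
  refine Submodule.mul_induction_on hx (fun f hf g hg => ?_) fun x y a b => ?_
  · rw [Derivation.leibniz, smul_eq_mul, smul_eq_mul]; exact add_mem (h1 f hf g hg) (h2 f hf g hg)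
  · rw [map_add]; exact add_mem a b

/-- elements whose quadratic part lies in `∑ (Y i) * (T i)` -/
def Q2 (p : ℕ) (K : Type) [CommRing K] {σ ι : Type} (Y T : ι → Set σ) : Ideal (O p K σ) :=
  (⨆ i, Zs p K (Y i) * Zs p K (T i)) ⊔ mx ^ 3

variable {ι : Type} {Y T : ι → Set σ} {g : O p K σ}

omit [Fact p.Prime] [Fact ((p : K) = 0)] in
theorem Q2_le : Q2 p K Y T ≤ mx ^ 2 :=
  sup_le (iSup_le fun _ => by rw [sq]; exact Ideal.mul_mono (Zs_mx _) (Zs_mx _))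
    (Ideal.pow_le_pow_right (by norm_num))

omit [Fact p.Prime] in
/-- the linear part of a derivative -/
theorem pd_Q2 (hg : g ∈ Q2 p K Y T) (u : σ) :
    pd u g ∈ mx ^ 2 ⊔ Zs p K {v | ∃ i, (u ∈ Y i ∧ v ∈ T i) ∨ (u ∈ T i ∧ v ∈ Y i)} := by
  obtain ⟨a, ha, b, hb, rfl⟩ := Submodule.mem_sup.1 hg
  rw [map_add]
  refine add_mem ?_ (Ideal.mem_sup_left (pd_pow u 2 hb))
  have key : ∀ {S S' R : Set σ}, (u ∈ S' → S ⊆ R) → ∀ f ∈ Zs p K S, ∀ g ∈ Zs p K S',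
      f * pd u g ∈ mx ^ 2 ⊔ Zs p K R := fun {S S' R} h f hf g hg => by
    by_cases hu : u ∈ S'
    · exact Ideal.mem_sup_right (Ideal.mul_mem_right _ _ (Zs_le.2 (fun a ha => z_Zs (h hu ha)) hf))
    · exact Ideal.mem_sup_left (sq (mx : Ideal (O p K σ)) ▸
        Ideal.mul_mem_mul (Zs_mx _ hf) (Zs_mx _ (pd_Zs hu hg)))
  clear hg
  induction ha using Submodule.iSup_induction' with
  | mem i x hx =>
    exact pd_mul_mem (key fun h v hv => Exists.intro i (Or.inr ⟨h, hv⟩))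
      (fun f hf g hg => key (fun h v hv => Exists.intro i (Or.inl ⟨h, hv⟩)) g hg f hf) hx
  | zero => simp
  | add x y _ _ h1 h2 => rw [map_add]; exact add_mem h1 h2

omit [Fact p.Prime] in
theorem pd_Q2_not (hg : g ∈ Q2 p K Y T) {u : σ} (h : ∀ i, u ∉ Y i ∧ u ∉ T i) : pd u g ∈ mx ^ 2 :=
  (sup_le le_rfl (Zs_le.2 (by
    rintro v ⟨i, hv | hv⟩
    exacts [absurd hv.1 (h i).1, absurd hv.1 (h i).2])) : _ ≤ mx ^ 2) (pd_Q2 hg u)

omit [Fact p.Prime] in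
theorem pd_pd_Q2 [Fintype σ] (hg : g ∈ Q2 p K Y T) {u v : σ}
    (h : ∀ i, ¬ (u ∈ Y i ∧ v ∈ T i) ∧ ¬ (u ∈ T i ∧ v ∈ Y i)) : pd v (pd u g) ∈ mx :=
  Crest.Agent.N255.Io.pd_sup (by rintro ⟨i, hv | hv⟩; exacts [(h i).1 hv, (h i).2 hv]) (pd_Q2 hg u)

omit [Fact ((p : K) = 0)] [Fact p.Prime] in
theorem map_Q2 {A : Type*} [CommRing A] [Algebra K A] (φ : O p K σ →ₐ[K] A) {m Y' T' : Ideal A}
    (hm : ∀ x, φ (z x) ∈ m) (hY : Y' ≤ m) (hT : T' ≤ m) {S S' : Set σ}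
    (h1 : ∀ x ∈ S, φ (z x) ∈ Y' ⊔ m ^ 2) (h2 : ∀ x ∈ S', φ (z x) ∈ T' ⊔ m ^ 2)
    (hg : g ∈ Zs p K S * Zs p K S' ⊔ mx ^ 3) : φ g ∈ Y' * T' ⊔ m ^ 3 := by
  have h := Ideal.mem_map_of_mem φ hg
  rw [Ideal.map_sup, Ideal.map_mul, Ideal.map_pow] at h
  have e : (mx : Ideal (O p K σ)).map φ ≤ m := Ideal.map_le_iff_le_comap.2 fun g => map_mx φ hm
  have e1 : (Zs p K S).map φ ≤ Y' ⊔ m ^ 2 := Ideal.map_le_iff_le_comap.2 fun g => map_Zs φ h1
  have e2 : (Zs p K S').map φ ≤ T' ⊔ m ^ 2 := Ideal.map_le_iff_le_comap.2 fun g => map_Zs φ h2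
  refine (sup_le ((Ideal.mul_mono e1 e2).trans ?_)
    (le_sup_of_le_right (Ideal.pow_right_mono e 3)) : _ ≤ _) h
  rw [Ideal.mul_sup, Ideal.sup_mul]
  refine sup_le (sup_le_sup_left ?_ _) (le_sup_of_le_right ?_)
  · rw [pow_succ _ 2]; exact Ideal.mul_mono_right hT
  · rw [pow_succ' _ 2]
    exact Ideal.mul_mono_left (sup_le hY (Ideal.pow_le_self two_ne_zero))

end Jet

variable {p : ℕ} [Fact p.Prime] {Γ : Type} [AddCommGroup Γ] {δ : Γ}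

/-- The quadratic part of a wall potential; `hol` marks the holonomy variables. -/
def W0 {σ : Type} [Fintype σ] (w : Wall p Γ δ σ) (hol : σ → Prop) : Prop :=
  w.W ∈ Zs p (ZMod p) {y | w.kd y = none} * Zs p (ZMod p) {x | w.kd x = none ∨ hol x} ⊔ mx ^ 3

theorem W0.hes {σ : Type} [Fintype σ] {w : Wall p Γ δ σ} {hol : σ → Prop} (h : W0 w hol) {x x' : σ}
    (hx : w.kd x ≠ none) (hx' : w.kd x' ≠ none) : pd x (pd x' w.W) ∈ mx :=
  pd_pd_Q2 (ι := Unit) (Y := fun _ => {y | w.kd y = none})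
    (T := fun _ => {x | w.kd x = none ∨ hol x}) (by rw [Q2, iSup_const]; exact h)
    fun _ => ⟨fun h => hx' h.1, fun h => hx h.2⟩

variable {s : Fin 3 → Type} [∀ i, Fintype (s i)] {w : ∀ i, Wall p Γ δ (s i)} {t : Fin 3 → Bool}
  {V B : Type} [Fintype V] [Fintype B]

/-- the copies of the variables `y` of slot `i` -/
def Yv (w : ∀ i, Wall p Γ δ (s i)) (B : Type) (em : (Σ i, s i) × Bool → V) (i : Fin 3) :
    Set (V ⊕ B) := {u | ∃ y, (w i).kd y = none ∧ u = inl (em (⟨i, y⟩, false))}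

/-- the partners of the `y`: near variables in an `L` slot, far variables in an `M` slot -/
def Tv (w : ∀ i, Wall p Γ δ (s i)) (t : Fin 3 → Bool) (B : Type) (em : (Σ i, s i) × Bool → V)
    (i : Fin 3) : Set (V ⊕ B) :=
  {u | (∃ x, (w i).kd x ≠ some (!t i) ∧ u = inl (em (⟨i, x⟩, false))) ∨ (t i = true ∧ u.isRight)}

variable {em : (Σ i, s i) × Bool → V}

omit [Fact p.Prime] [Fintype V] [Fintype B] in
theorem Yv_sub (i : Fin 3) : Yv w B em i ⊆ Tv w t B em i := by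
  rintro _ ⟨y, hy, rfl⟩
  exact Or.inl ⟨y, by simp [hy], rfl⟩

omit [Fact p.Prime] [Fintype V] [Fintype B] in
theorem Yv_eq (i : Fin 3) : Zs p (ZMod p) (Yv w B em i) =
    Ideal.span {g | ∃ y, (w i).kd y = none ∧ g = z (inl (em (⟨i, y⟩, false)))} := by
  rw [Zs]
  congr 1
  ext g
  exact ⟨by rintro ⟨_, ⟨y, hy, rfl⟩, rfl⟩; exact ⟨y, hy, rfl⟩,
    by rintro ⟨y, hy, rfl⟩; exact ⟨_, ⟨y, hy, rfl⟩, rfl⟩⟩

omit [Fintype V] [Fintype B] in
theorem GA_Q2 {hol : ∀ i, s i → Prop} (h0 : ∀ i, W0 (w i) (hol i))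
    {jo : ∀ i, O p (ZMod p) (s i) →ₐ[ZMod p] O p (ZMod p) (V ⊕ B)} (hm : ∀ i x, jo i (z x) ∈ mx)
    (hy : ∀ i y, (w i).kd y = none → jo i (z y) ∈ Zs p (ZMod p) (Yv w B em i) ⊔ mx ^ 2)
    (hw : ∀ i x, hol i x → jo i (z x) ∈ Zs p (ZMod p) (Tv w t B em i) ⊔ mx ^ 2)
    {Ps : O p (ZMod p) V} (h3 : Ps ∈ mx ^ 3) :
    GA w t jo Ps ∈ Q2 p (ZMod p) (Yv w B em) (Tv w t B em) := by
  refine add_mem (sum_mem fun i _ => ?_) (Ideal.mem_sup_right (map_mx_pow _ (fun x => ?_) h3))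
  · have : jo i (w i).W ∈ Q2 p (ZMod p) (Yv w B em) (Tv w t B em) :=
      sup_le_sup_right (le_iSup (fun i => Zs p (ZMod p) (Yv w B em i) *
        Zs p (ZMod p) (Tv w t B em i)) i) _ (map_Q2 (jo i) (hm i) (Zs_mx _) (Zs_mx _) (hy i)
          (fun x hx => hx.elim (fun h => sup_le_sup_right
            (Zs_le.2 fun a ha => z_Zs (Yv_sub i ha)) _ (hy i x h)) (hw i x)) (h0 i))
    split_ifs
    exacts [this, neg_mem this]
  · rw [rn_z]; exact z_mem _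

/-- the Hessian facts used by step 2 and step A -/
structure Hs (w : ∀ i, Wall p Γ δ (s i)) (t : Fin 3 → Bool) (em : (Σ i, s i) × Bool → V)
    (G : O p (ZMod p) (V ⊕ B)) : Prop where
  G2 : G ∈ mx ^ 2
  Gm : ∀ q : Xm w t, pd (inl (em q.1.1)) G ∈ mx ^ 2
  iso : ∀ b b', pd (inr b) (pd (inr b') G) ∈ mx
  Gb : ∀ (q : Xi w t) b, pd (inl (em q.1)) (pd (inr b) G) ∈ mx
  hD : ∀ (o : V → ℕ) (μ N1 : ℕ), (∀ v, μ ≤ o v) → N1 ≤ 2 * μ →
    (∀ i y, (w i).kd y = none → N1 ≤ o (em (⟨i, y⟩, false))) →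
    ∀ b, pz p V B (pd (inr b) G) ∈ Ge p (ZMod p) o N1

theorem hs_of_Q2 (inj : Set.InjOn em {q | Ok w t q}) {G : O p (ZMod p) (V ⊕ B)}
    (h : G ∈ Q2 p (ZMod p) (Yv w B em) (Tv w t B em)) : Hs w t em G := by
  have nY : ∀ i b, (inr b : V ⊕ B) ∉ Yv w B em i := by rintro i b ⟨y, -, h⟩; cases h
  have tr : ∀ i b, (inr b : V ⊕ B) ∈ Tv w t B em i → t i = true := by
    rintro i b (⟨y, -, h⟩ | h)
    · cases h
    · exact h.1
  refine ⟨Q2_le h, fun q => pd_Q2_not h fun i => ?_, fun b b' => pd_pd_Q2 h fun i =>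
    ⟨fun h => nY i _ h.1, fun h => nY i _ h.2⟩, fun q b => pd_pd_Q2 h fun i =>
      ⟨fun h => nY i _ h.1, ?_⟩, fun o μ N1 h1 h2 h3 b => ?_⟩
  · have : (inl (em q.1.1) : V ⊕ B) ∉ Tv w t B em i := by
      rintro (⟨x, hx, e⟩ | h)
      · have := congrArg Prod.snd (inj (xi_ok q.1) (Or.inl ⟨rfl, hx⟩) (inl_injective e))
        simp [q.2] at this
      · simp at h
    exact ⟨fun h => this (Yv_sub i h), this⟩
  · rintro ⟨h1, y, hy, e⟩
    have h2 := congrArg (fun x => x.1.1) (inj (xi_ok q) (Crest.Agent.N255.Tg.ok_y hy) (inl_injective e))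
    have h3 := q.2.1
    simp only at h2
    rw [h2, tr i b h1] at h3
    cases h3
  · obtain ⟨a, ha, c, hc, e⟩ := Submodule.mem_sup.1 (pd_Q2 h (inr b))
    rw [← e, map_add]
    refine add_mem (sq_le_Ge h1 (by omega) (map_mx_pow _ pz_mx ha)) (map_Zs _ ?_ hc)
    rintro v ⟨i, hv | ⟨-, y, hy, rfl⟩⟩
    · exact absurd hv.1 (nY i b)
    · rw [pz_inl]
      exact (flt_Ge o).anti (by have := h3 i y hy; omega) (z_mem_Ge o _)

variable {N : ℕ} {κ α : Type*} [Fintype α]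

/-- **Step B with the Hessian facts.** -/
theorem stepBZ (f : ∀ i, Wf (w i) N) (t : Fin 3 → Bool)
    {Z : Zn (O p (ZMod p) (V ⊕ B)) κ α (Fin 3)} (hZ : Z.Ok) (hm : Z.m = mx)
    {em : (Σ i, s i) × Bool → V} (inj : Set.InjOn em {q | Ok w t q}) {o : Fin 3 → V ⊕ B → ℕ}
    (ho : ∀ i x, (w i).kd x ≠ some (!t i) → o i (.inl (em (⟨i, x⟩, false))) = N + (w i).F x)
    (pos : ∀ i x, 0 < N + (w i).F x)
    {io : ∀ i, O p (ZMod p) (s i) →ₐ[ZMod p] O p (ZMod p) (V ⊕ B)}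
    (near : ∀ i x, (w i).kd x ≠ some (!t i) →
      Hi (o i) (N + (w i).F x) (io i (z x) - z (.inl (em (⟨i, x⟩, false)))))
    (far : ∀ i x, (w i).kd x = some (!t i) → Hi (o i) (N + (w i).F x) (io i (z x)))
    (hy : ∀ i x, (w i).kd x = none → io i (z x) - z (.inl (em (⟨i, x⟩, false))) ∈
      Ideal.span {g | ∃ y, (w i).kd y = none ∧ g = z (.inl (em (⟨i, y⟩, false)))} * mx)
    {N1 : ℕ} (hN : ∀ i, (f i).I ≤ Ge p (ZMod p) (fun x => N + (w i).F x) N1)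
    (hN' : ∀ i y y', (w i).kd y = none → (w i).kd y' = none → (w i).F y < (w i).F y' + N1)
    {H : Ideal (O p (ZMod p) (V ⊕ B))} {H1 : Fin 3 → Ideal (O p (ZMod p) (V ⊕ B))}
    (hI : ∀ i, Z.IK i ≤ (f i).I.map (io i) ⊔ H1 i)
    (hH : ∀ i, ((f i).I.map (io i) ⊔ H1 i) * H1 i ≤ H)
    (hK : ∀ i, (f i).I.map (io i) * (f i).KU.map (io i) ≤ H) {Ps : O p (ZMod p) V}
    (h3 : Ps ∈ mx ^ 3) {hol : ∀ i, s i → Prop} (h0 : ∀ i, W0 (w i) (hol i))
    (hl : ∀ i, (f i).I ≤ Zs p (ZMod p) {y | (w i).kd y = none} ⊔ mx ^ 2)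
    (hw : ∀ i x, hol i x → io i (z x) ∈ Zs p (ZMod p) (Tv w t B em i) ⊔ mx ^ 2)
    {G : O p (ZMod p) (V ⊕ B)}
    (hP : G + GA w t io Ps - ∑ b, Z.ε b * Z.E b ∈ Z.Qd ⊔ Z.Eps * Z.Eps ⊔ H) :
    ∃ jo : ∀ i, O p (ZMod p) (s i) →ₐ[ZMod p] O p (ZMod p) (V ⊕ B),
      (∀ i x, (w i).kd x ≠ some (!t i) →
        Hi (o i) (N + (w i).F x) (jo i (z x) - z (.inl (em (⟨i, x⟩, false))))) ∧
      (∀ i x, (w i).kd x = some (!t i) → Hi (o i) (N + (w i).F x) (jo i (z x))) ∧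
      (∀ i x, (w i).kd x = none → jo i (z x) - z (.inl (em (⟨i, x⟩, false))) ∈
        Ideal.span {g | ∃ y, (w i).kd y = none ∧ g = z (.inl (em (⟨i, y⟩, false)))} * mx) ∧
      Hs w t em (GA w t jo Ps) ∧ G + GA w t jo Ps - ∑ b, Z.ε b * Z.E b ∈ Z.Rs ⊔ H := by
  obtain ⟨jo, k1, k2, k3, k4, k5, k6⟩ := stepBA f t hZ hm ho pos near far hy hN hN' hI hH hK hP
  have hx : ∀ i x, io i (z x) ∈ mx := fun i x => by
    by_cases h : (w i).kd x = some (!t i)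
    · exact Ge_le_mx (by omega) (hi_Ge.1 (far i x h))
    · simpa using add_mem (Ge_le_mx (by omega) (hi_Ge.1 (near i x h)))
        (z_mem (inl (em (⟨i, x⟩, false))))
  have yy : ∀ {jo : ∀ i, O p (ZMod p) (s i) →ₐ[ZMod p] O p (ZMod p) (V ⊕ B)} (i y),
      (w i).kd y = none → jo i (z y) - z (.inl (em (⟨i, y⟩, false))) ∈ Ideal.span
        {g | ∃ y, (w i).kd y = none ∧ g = z (.inl (em (⟨i, y⟩, false)))} * mx →
      jo i (z y) ∈ Zs p (ZMod p) (Yv w B em i) ⊔ mx ^ 2 := fun i y h1 h2 => by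
    rw [← Yv_eq] at h2
    simpa using Ideal.mem_sup_left (T := mx ^ 2)
      (add_mem (Ideal.mul_le_left h2) (z_Zs (T := Yv w B em i) ⟨y, h1, rfl⟩))
  refine ⟨jo, k1, k2, k3, hs_of_Q2 inj (GA_Q2 h0 (fun i => k5 mx i (hx i))
    (fun i y h => yy i y h (k3 i y h)) (fun i x h => ?_) h3), k6⟩
  have : (f i).I.map (io i) ≤ Zs p (ZMod p) (Tv w t B em i) ⊔ mx ^ 2 :=
    Ideal.map_le_iff_le_comap.2 ((hl i).trans (sup_le (Zs_le.2 fun y h => sup_le_sup_right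
      (Zs_le.2 fun a ha => z_Zs (Yv_sub i ha)) _ (yy i y h (hy i y h)))
      fun g hg => Ideal.mem_sup_right (map_mx_pow _ (hx i) hg)))
  simpa using add_mem (this (k4 i x)) (hw i x h)

/-- the weak form of `W0` -/
def W0w {σ : Type} [Fintype σ] (w : Wall p Γ δ σ) : Prop :=
  w.W ∈ Zs p (ZMod p) {y | w.kd y = none} * mx ⊔ mx ^ 3

omit [Fact p.Prime] in
theorem Zs_univ {σ : Type} : Zs p (ZMod p) (Set.univ : Set σ) = mx := by
  rw [Zs, Set.image_univ]; rfl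

theorem W0w.w0 {σ : Type} [Fintype σ] {w : Wall p Γ δ σ} (h : W0w w) : W0 w fun _ => True := by
  unfold W0
  unfold W0w at h
  simpa only [or_true, Set.setOf_true, Zs_univ] using h

theorem W0w.hes {σ : Type} [Fintype σ] {w : Wall p Γ δ σ} (h : W0w w) {x x' : σ}
    (hx : w.kd x ≠ none) (hx' : w.kd x' ≠ none) : pd x (pd x' w.W) ∈ mx := h.w0.hes hx hx'

/-- the Hessian facts for a family which does not see the variables `m` -/
theorem hs_weak (h0 : ∀ i, W0w (w i))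
    {jo : ∀ i, O p (ZMod p) (s i) →ₐ[ZMod p] O p (ZMod p) (V ⊕ B)} (hm : ∀ i x, jo i (z x) ∈ mx)
    (hy : ∀ i y, (w i).kd y = none → jo i (z y) - z (inl (em (⟨i, y⟩, false))) ∈
      Ideal.span {g | ∃ y, (w i).kd y = none ∧ g = z (inl (em (⟨i, y⟩, false)))} * mx)
    (fr : ∀ i x (q : Xm w t), pd (inl (em q.1.1)) (jo i (z x)) = 0)
    {Ps : O p (ZMod p) V} (h3 : Ps ∈ mx ^ 3) :
    GA w t jo Ps ∈ mx ^ 2 ∧ (∀ q : Xm w t, pd (inl (em q.1.1)) (GA w t jo Ps) ∈ mx ^ 2) ∧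
      (∀ b b', pd (inr b) (pd (inr b') (GA w t jo Ps)) ∈ mx) ∧
      ∀ (o : V → ℕ) (μ N1 : ℕ), (∀ v, μ ≤ o v) → N1 ≤ 2 * μ →
        (∀ i y, (w i).kd y = none → N1 ≤ o (em (⟨i, y⟩, false))) →
        ∀ b, pz p V B (pd (inr b) (GA w t jo Ps)) ∈ Ge p (ZMod p) o N1 := by
  have nY : ∀ i b, (inr b : V ⊕ B) ∉ Yv w B em i := by rintro i b ⟨y, -, h⟩; cases h
  have r3 : (rn inl Ps : O p (ZMod p) (V ⊕ B)) ∈ mx ^ 3 :=
    map_mx_pow _ (fun x => by rw [rn_z]; exact z_mem _) h3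
  have h : GA w t jo Ps ∈ Q2 p (ZMod p) (Yv w B em) fun _ => Set.univ := by
    refine add_mem (sum_mem fun i _ => ?_) (Ideal.mem_sup_right r3)
    have : jo i (w i).W ∈ Q2 p (ZMod p) (Yv w B em) fun _ => Set.univ := by
      refine SetLike.le_def.1 (sup_le_sup_right (le_iSup (fun i => Zs p (ZMod p) (Yv w B em i) *
        Zs p (ZMod p) Set.univ) i) _) (map_Q2 (jo i) (hm i) (Zs_mx _) (Zs_mx _) (fun y h => ?_)
          (fun x _ => Ideal.mem_sup_left (Zs_univ (p := p) ▸ hm i x)) (h0 i).w0)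
      have h2 := hy i y h
      rw [← Yv_eq] at h2
      simpa using Ideal.mem_sup_left (T := mx ^ 2)
        (add_mem (Ideal.mul_le_left h2) (z_Zs (T := Yv w B em i) ⟨y, h, rfl⟩))
    split_ifs
    exacts [this, neg_mem this]
  refine ⟨Q2_le h, fun q => ?_, fun b b' => pd_pd_Q2 h fun i =>
    ⟨fun h => nY i _ h.1, fun h => nY i _ h.2⟩, fun o μ N1 h1 h2 h3 b => ?_⟩
  · have : ∀ i, pd (inl (em q.1.1)) (jo i (w i).W) = 0 := fun i => by
      rw [chain]; simp [fr]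
    rw [GA, map_add, map_sum, Finset.sum_eq_zero fun i _ => by split_ifs <;> simp [this], zero_add]
    exact pd_pow _ 2 r3
  · obtain ⟨a, ha, c, hc, e⟩ := Submodule.mem_sup.1 (pd_Q2 h (inr b))
    rw [← e, map_add]
    refine add_mem (sq_le_Ge h1 (by omega) (map_mx_pow _ pz_mx ha)) (map_Zs _ ?_ hc)
    rintro v ⟨i, hv | ⟨-, y, hy, rfl⟩⟩
    · exact absurd hv.1 (nY i b)
    · rw [pz_inl]
      exact (flt_Ge o).anti (by have := h3 i y hy; omega) (z_mem_Ge o _)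

end N255.Sl

end
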