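import Crest.Agent.N255.Sl.All
import Crest.Agent.N255.Sl.One
import Crest.Agent.N255.Tg.PA

/-! Row 255 (helper56): step B, the deep squares of all slots are absorbed by the walls. -/

set_option autoImplicit false

noncomputable section

namespace N255.Sl

open N255.Dr N255.Dr.O Crest.Agent.N255.Tg N255.Core

theorem mem_iSup_sum {A ι : Type*} [CommRing A] [Fintype ι] {J : ι → Ideal A} {x : A}
    (hx : x ∈ ⨆ i, J i) : ∃ P : ι → A, (∀ i, P i ∈ J i) ∧ ∑ i, P i = x := by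
  classical
  induction hx using Submodule.iSup_induction' with
  | mem i x hx => exact ⟨Pi.single i x, fun j => by
      by_cases h : j = i
      · subst h; simpa using hx
      · simp [h], by simp⟩
  | zero => exact ⟨0, by simp, by simp⟩
  | add x y _ _ h1 h2 =>
    obtain ⟨P, h1, rfl⟩ := h1
    obtain ⟨Q, h2, rfl⟩ := h2
    exact ⟨P + Q, fun i => add_mem (h1 i) (h2 i), by simp [Finset.sum_add_distrib]⟩

namespace Zn

variable {A κ α ι : Type*} [CommRing A] {Z : Zn A κ α ι}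

/-- the generators may be changed by macroscopic generators -/
theorem Ok.shift (h : Z.Ok) (r : α → A)
    (hr : ∀ a, r a ∈ ⨆ (b) (_ : Z.pa b = 0 ∧ r b = 0), Ideal.span {Z.E b}) :
    ({ Z with E := fun a => Z.E a + r a } : Zn A κ α ι).Ok := by
  refine { h with hE1 := fun k => (h.hE1 k).trans (sup_le_sup_right (iSup₂_le fun a ha => ?_) _) }
  have h1 : Z.E a + r a ∈ ⨆ (a) (_ : Z.pa a ≤ Z.pos k + Z.γ), Ideal.span {Z.E a + r a} :=
    Ideal.mem_iSup_of_mem a (Ideal.mem_iSup_of_mem ha (Ideal.mem_span_singleton_self _))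
  have h2 : (⨆ (b) (_ : Z.pa b = 0 ∧ r b = 0), Ideal.span {Z.E b}) ≤
      ⨆ (a) (_ : Z.pa a ≤ Z.pos k + Z.γ), Ideal.span {Z.E a + r a} := iSup₂_le fun b hb =>
    le_iSup₂_of_le b (by omega) (by rw [hb.2, add_zero])
  simpa using (Ideal.span_singleton_le_iff_mem _).2 (sub_mem h1 (h2 (hr a)))

end Zn

variable {p : ℕ} [Fact p.Prime] {Γ : Type} [AddCommGroup Γ] {δ : Γ}

/-- the multiplicative coefficients: only the variables `y` move multiplicatively -/
def YU {σ : Type} [Fintype σ] (w : Wall p Γ δ σ) (x : σ) : Ideal (O p (ZMod p) σ) :=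
  if w.kd x = none then sp fun y : {y // w.kd y = none} => z y.1 else ⊥

/-- The wall facts `W1`, `W2`: `I` = centre ideal, `ka a` = generator detected by `e a`. -/
structure Wf {σ : Type} [Fintype σ] (w : Wall p Γ δ σ) (N : ℕ) where
  I : Ideal (O p (ZMod p) σ)
  KU : Ideal (O p (ZMod p) σ)
  β : Type
  ka : β → O p (ZMod p) σ
  e : β → σ
  hI : I ≤ mx
  he : ∀ a, w.kd (e a) ≠ none
  hk : ∀ a, ka a ∈ I ∧ ka a ∈ Ge p (ZMod p) (fun x => N + w.F x) ((N + w.F (e a) : ℕ) + 1)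
  w1 : I ≤ sp ka ⊔ EE (YU w) (fun x => pd x w.W) KU
  w2 : ∀ a, ka a - pd (e a) w.W ∈ mx * I ⊔ EE (YU w) (fun x => pd x w.W) KU
  hes : ∀ a b, pd (e a) (pd (e b) w.W) ∈ (mx : Ideal (O p (ZMod p) σ))

variable {s : Fin 3 → Type} [∀ i, Fintype (s i)] {w : ∀ i, Wall p Γ δ (s i)} {N : ℕ}
  {A : Type*} [CommRing A] [Algebra (ZMod p) A] {κ α : Type*} [Fintype α]

/-- **Step B.**  `io i` = the vertex family read on the wall `i`, `G` = all other terms. -/
theorem stepB (f : ∀ i, Wf (w i) N) (t : Fin 3 → Bool) {Z : Zn A κ α (Fin 3)} (hZ : Z.Ok)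
    (hp : ∀ x ∈ Z.m, x ^ p = 0) {io : ∀ i, O p (ZMod p) (s i) →ₐ[ZMod p] A}
    (hm : ∀ i x, io i (z x) ∈ Z.m) {Fl : Fin 3 → ℤ → Ideal A} (fl : ∀ i, Flt (Fl i))
    (hF : ∀ i x, io i (z x) ∈ Fl i (N + (w i).F x : ℕ)) {H : Ideal A} {H1 : Fin 3 → Ideal A}
    (hI : ∀ i, Z.IK i ≤ (f i).I.map (io i) ⊔ H1 i)
    (hH : ∀ i, ((f i).I.map (io i) ⊔ H1 i) * H1 i ≤ H)
    (hK : ∀ i, (f i).I.map (io i) * (f i).KU.map (io i) ≤ H) {G : A}
    (hP : ∑ i, (if t i = true then io i (w i).W else -io i (w i).W) + G - ∑ b, Z.ε b * Z.E b ∈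
      Z.Qd ⊔ Z.Eps * Z.Eps ⊔ H) :
    ∃ (jo : ∀ i, O p (ZMod p) (s i) →ₐ[ZMod p] A) (h : ∀ i, s i → s i → A),
      (∀ i x, (w i).kd x ≠ none →
        jo i (z x) - io i (z x) ∈ (f i).I.map (io i) ⊓ Fl i ((N + (w i).F x : ℕ) + 1)) ∧
      (∀ i x, (w i).kd x ≠ none → x ∉ Set.range (f i).e → jo i (z x) = io i (z x)) ∧
      (∀ i y y', h i y y' ∈ (f i).I.map (io i)) ∧
      (∀ i y, (w i).kd y = none → jo i (z y) = ys (w := w) (fun x => io i (z x)) (h i) y) ∧
      ∑ i, (if t i = true then jo i (w i).W else -jo i (w i).W) + G - ∑ b, Z.ε b * Z.E b ∈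
        Z.Rs ⊔ H := by
  classical
  have h1 : Z.Qd ⊔ Z.Eps * Z.Eps ⊔ H ≤ (⨆ i, (f i).I.map (io i) ^ 2 ⊔ H) ⊔ Z.Rs := by
    refine sup_le (sup_le (hZ.Qd_le.trans (sup_le_sup_right (iSup_mono fun i => ?_) _))
      (le_sup_of_le_right Zn.Eps_sq)) (le_sup_of_le_left (le_iSup_of_le 0 le_sup_right))
    refine (Ideal.mul_mono (hI i) (hI i)).trans ?_
    rw [Ideal.mul_sup, Ideal.sup_mul ((f i).I.map (io i)) (H1 i) ((f i).I.map (io i)), sq,
      mul_comm (H1 i)]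
    exact sup_le (sup_le_sup_left ((Ideal.mul_mono_left le_sup_left).trans (hH i)) _)
      (le_sup_of_le_right (hH i))
  obtain ⟨P', hP', R, hR, e⟩ := Submodule.mem_sup.1 (h1 hP)
  obtain ⟨P, hP1, rfl⟩ := mem_iSup_sum hP'
  have hY : ∀ i x, YU (w i) x ≤ mx := fun i x => by
    unfold YU
    split_ifs
    exacts [sp_le.2 fun _ => z_mem _, bot_le]
  have key := fun i => Crest.Agent.N255.Sl.step1 hZ.nil hp (hm i) (f i).hI (hY i) (fl i)
    (F := fun x => N + (w i).F x) (hF i) 1 (f i).hk (f i).w1 (f i).w2 (hK i) (f i).hes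
    (P := if t i = true then -P i else P i) (by split_ifs; exacts [neg_mem (hP1 i), hP1 i])
  choose jo k1 k2 k3 using key
  have k4 : ∀ i y, ∃ c : s i → A, (∀ y', c y' ∈ (f i).I.map (io i)) ∧ ((w i).kd y = none →
      jo i (z y) = io i (z y) + ∑ y', if (w i).kd y' = none then io i (z y') * c y' else 0) :=
    fun i y => by
    by_cases hy : (w i).kd y = none
    swap
    · exact ⟨0, by simp, fun h => absurd h hy⟩
    have := k2 i y (by rintro ⟨a, rfl⟩; exact (f i).he a hy)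
    rw [YU, if_pos hy] at this
    obtain ⟨c, hc, e⟩ := Crest.Agent.N255.Sl.mem_mul_map_sp _ _ this
    refine ⟨fun y' => if h : (w i).kd y' = none then c ⟨y', h⟩ else 0, fun y' => ?_, fun _ => ?_⟩
    · beta_reduce
      split_ifs
      exacts [hc _, zero_mem _]
    · rw [← Finset.sum_filter, Finset.sum_subtype (p := fun y' => (w i).kd y' = none) _ (by simp),
        ← sub_eq_iff_eq_add', e]
      exact Finset.sum_congr rfl fun y' _ => by beta_reduce; rw [dif_pos y'.2, mul_comm]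
  choose h k5 k6 using k4
  refine ⟨jo, h, fun i x hx => ?_, fun i x hx hx' => ?_, k5, k6, ?_⟩
  · simpa [YU, hx] using k1 i x
  · simpa [YU, hx, sub_eq_zero] using k2 i x hx'
  · have : ∑ i, ((if t i = true then jo i (w i).W else -jo i (w i).W) -
        (if t i = true then io i (w i).W else -io i (w i).W) + P i) ∈ H :=
      sum_mem fun i _ => by
        have := k3 i
        split_ifs at this ⊢
        · simpa using this
        · convert neg_mem this using 1; ring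
    convert Submodule.add_mem_sup hR this using 1
    simp only [Finset.sum_add_distrib, Finset.sum_sub_distrib]
    linear_combination -e

/-- **Step B in the form of `PVxA`.** -/
theorem stepBA {V B : Type} [Fintype V] [Fintype B] (f : ∀ i, Wf (w i) N) (t : Fin 3 → Bool)
    {Z : Zn (O p (ZMod p) (V ⊕ B)) κ α (Fin 3)} (hZ : Z.Ok) (hm : Z.m = mx)
    {em : (Σ i, s i) × Bool → V} {o : Fin 3 → V ⊕ B → ℕ}
    (ho : ∀ i x, (w i).kd x ≠ some (!t i) → o i (.inl (em (⟨i, x⟩, false))) = N + (w i).F x)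
    (pos : ∀ i x, 0 < N + (w i).F x)
    {io : ∀ i, O p (ZMod p) (s i) →ₐ[ZMod p] O p (ZMod p) (V ⊕ B)}
    (near : ∀ i x, (w i).kd x ≠ some (!t i) →
      Hi (o i) (N + (w i).F x) (io i (z x) - z (.inl (em (⟨i, x⟩, false)))))
    (far : ∀ i x, (w i).kd x = some (!t i) → Hi (o i) (N + (w i).F x) (io i (z x)))
    (hy : ∀ i x, (w i).kd x = none → io i (z x) - z (.inl (em (⟨i, x⟩, false))) ∈
      Ideal.span {g | ∃ y, (w i).kd y = none ∧ g = z (.inl (em (⟨i, y⟩, false)))} * mx)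
    {N1 : ℕ} (hN : ∀ i, (f i).I ≤ Ge p (ZMod p) (fun x => N + (w i).F x) N1)
    (hN' : ∀ i y y', (w i).kd y = none → (w i).kd y' = none → (w i).F y < (w i).F y' + N1)
    {H : Ideal (O p (ZMod p) (V ⊕ B))} {H1 : Fin 3 → Ideal (O p (ZMod p) (V ⊕ B))}
    (hI : ∀ i, Z.IK i ≤ (f i).I.map (io i) ⊔ H1 i)
    (hH : ∀ i, ((f i).I.map (io i) ⊔ H1 i) * H1 i ≤ H)
    (hK : ∀ i, (f i).I.map (io i) * (f i).KU.map (io i) ≤ H) {Ps : O p (ZMod p) V}
    {G : O p (ZMod p) (V ⊕ B)}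
    (hP : G + GA w t io Ps - ∑ b, Z.ε b * Z.E b ∈ Z.Qd ⊔ Z.Eps * Z.Eps ⊔ H) :
    ∃ jo : ∀ i, O p (ZMod p) (s i) →ₐ[ZMod p] O p (ZMod p) (V ⊕ B),
      (∀ i x, (w i).kd x ≠ some (!t i) →
        Hi (o i) (N + (w i).F x) (jo i (z x) - z (.inl (em (⟨i, x⟩, false))))) ∧
      (∀ i x, (w i).kd x = some (!t i) → Hi (o i) (N + (w i).F x) (jo i (z x))) ∧
      (∀ i x, (w i).kd x = none → jo i (z x) - z (.inl (em (⟨i, x⟩, false))) ∈
        Ideal.span {g | ∃ y, (w i).kd y = none ∧ g = z (.inl (em (⟨i, y⟩, false)))} * mx) ∧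
      (∀ i x, jo i (z x) - io i (z x) ∈ (f i).I.map (io i)) ∧
      (∀ J : Ideal (O p (ZMod p) (V ⊕ B)), ∀ i, (∀ x, io i (z x) ∈ J) → ∀ x, jo i (z x) ∈ J) ∧
      G + GA w t jo Ps - ∑ b, Z.ε b * Z.E b ∈ Z.Rs ⊔ H := by
  have hF : ∀ i x, io i (z x) ∈ Ge p (ZMod p) (o i) (N + (w i).F x : ℕ) := fun i x => by
    by_cases hx : (w i).kd x = some (!t i)
    · exact (flt_Ge _).anti (by omega) (hi_Ge.1 (far i x hx))
    · have h1 := z_mem_Ge (p := p) (K := ZMod p) (o i) (.inl (em (⟨i, x⟩, false)))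
      rw [ho i x hx] at h1
      simpa using add_mem ((flt_Ge _).anti (by omega) (hi_Ge.1 (near i x hx))) h1
  have hx : ∀ i x, io i (z x) ∈ mx := fun i x => Ge_le_mx (by have := pos i x; omega) (hF i x)
  have e : ∀ jo : ∀ i, O p (ZMod p) (s i) →ₐ[ZMod p] O p (ZMod p) (V ⊕ B), G + GA w t jo Ps =
      ∑ i, (if t i = true then jo i (w i).W else -jo i (w i).W) + (rn .inl Ps + G) := fun jo => by
    rw [GA]; ring
  obtain ⟨jo, h, k1, -, k3, k4, k5⟩ := stepB f t hZ (fun x h => pow_p (hm ▸ h))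
    (fun i x => hm ▸ hx i x) (fun i => flt_Ge (o i)) hF hI hH hK (e io ▸ hP)
  have mJ : ∀ J : Ideal (O p (ZMod p) (V ⊕ B)), ∀ i, (∀ x, io i (z x) ∈ J) →
      (f i).I.map (io i) ≤ J := fun J i hJ =>
    Ideal.map_le_iff_le_comap.2 fun g hg => map_mx (io i) hJ ((f i).hI hg)
  have ky : ∀ i y, (w i).kd y = none → ∀ J : Ideal (O p (ZMod p) (V ⊕ B)),
      (∀ y', (w i).kd y' = none → io i (z y') * h i y y' ∈ J) → jo i (z y) - io i (z y) ∈ J :=
    fun i y hy J hJ => by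
    rw [k4 i y hy, ys, add_sub_cancel_left]
    refine sum_mem fun y' _ => ?_
    split_ifs with h'
    exacts [hJ y' h', zero_mem _]
  have kI : ∀ i x, jo i (z x) - io i (z x) ∈ (f i).I.map (io i) := fun i x => by
    by_cases hx : (w i).kd x = none
    exacts [ky i x hx _ fun y' _ => Ideal.mul_mem_left _ _ (k3 i x y'), (k1 i x hx).1]
  have kG : ∀ i x, jo i (z x) - io i (z x) ∈ Ge p (ZMod p) (o i) ((N + (w i).F x : ℕ) + 1) :=
    fun i x => by
    by_cases hx : (w i).kd x = none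
    swap
    · exact (k1 i x hx).2
    refine ky i x hx _ fun y' hy' => (flt_Ge _).mul_le (m := N1) le_rfl
      (Ideal.map_le_iff_le_comap.2 fun g hg => map_Ge (flt_Ge _) (hF i) (hN i hg))
      (by have := hN' i x y' hx hy'; omega) (Ideal.mul_mem_mul (hF i y') (k3 i x y'))
  refine ⟨jo, fun i x hx => hi_Ge.2 ?_, fun i x hx => hi_Ge.2 ?_, fun i y hy' => ?_, kI,
    fun J i hJ x => by simpa using add_mem (mJ J i hJ (kI i x)) (hJ x), e jo ▸ k5⟩
  · simpa using add_mem (kG i x) (hi_Ge.1 (near i x hx))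
  · simpa using add_mem (kG i x) (hi_Ge.1 (far i x hx))
  · have := ky i y hy' _ fun y' h' => Ideal.mul_mem_mul (show io i (z y') ∈ Ideal.span
      {g | ∃ y, (w i).kd y = none ∧ g = z (Sum.inl (em (⟨i, y⟩, false)))} by
        simpa using add_mem (Ideal.mul_le_left (hy i y' h')) (Ideal.subset_span ⟨y', h', rfl⟩))
      (mJ mx i (hx i) (k3 i y y'))
    simpa using add_mem this (hy i y hy')

end N255.Sl

end
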