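import Crest.Agent.N255.Sl.Neu

/-! Row 255 (helper56): steps 1 and 2 for a universal potential. -/

set_option autoImplicit false

noncomputable section

namespace N255.Sl

open N255.Dr N255.Dr.O Crest.Agent.N255.Tg

section Gauss
variable {K A : Type*} [Field K] [CommRing A] [Algebra K A] {X : Type*} [Fintype X] [DecidableEq X]

/-- Gaussian rows: the coefficient matrix is read off from linear parts -/
theorem gauss {g G : X → A} {N : Ideal A} (lam : X → A →ₗ[K] K) (hN : ∀ q, ∀ f ∈ N, lam q f = 0)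
    (hG : ∀ q, ∃ b : X → K, G q - ∑ a, b a • g a ∈ N)
    (hT : IsUnit (Matrix.of fun q q' => lam q' (G q)).det) (q : X) :
    g q ∈ Ideal.span (Set.range G) ⊔ N := by
  choose B hB using hG
  have e : (Matrix.of fun q q' => lam q' (G q)) = Matrix.of B * Matrix.of fun a q' => lam q' (g a) := by
    ext q q'
    have := hN q' _ (hB q)
    rw [map_sub, sub_eq_zero, map_sum] at this
    simpa [Matrix.mul_apply] using this
  rw [e, Matrix.det_mul] at hT
  have h1 : (Matrix.of B)⁻¹ * Matrix.of B = 1 :=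
    Matrix.nonsing_inv_mul _ (isUnit_of_mul_isUnit_left hT)
  have h2 : g q = ∑ r, (Matrix.of B)⁻¹ q r • G r -
      ∑ r, (Matrix.of B)⁻¹ q r • (G r - ∑ a, B r a • g a) := by
    simp only [smul_sub, Finset.sum_sub_distrib, sub_sub_cancel, Finset.smul_sum, smul_smul]
    rw [Finset.sum_comm]
    simp only [← Finset.sum_smul]
    have : ∀ a, ∑ r, (Matrix.of B)⁻¹ q r * B r a = (1 : Matrix X X K) q a := fun a => by
      rw [← h1, Matrix.mul_apply]; rfl
    simp [this, Matrix.one_apply]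
  rw [h2]
  exact sub_mem (Ideal.mem_sup_left (sum_mem fun r _ => Submodule.smul_of_tower_mem _ _
    (Ideal.subset_span ⟨r, rfl⟩))) (Ideal.mem_sup_right (sum_mem fun r _ =>
      Submodule.smul_of_tower_mem _ _ (hB r)))

end Gauss

section Two
variable {K A A0 : Type*} [Field K] [CommRing A] [CommRing A0] [Algebra K A] [Algebra K A0]
  {κ α ι : Type*} {Z : Zn A κ α ι} {π : A →ₐ[K] A0} {W0 : ℕ → Ideal A0}

namespace Zn

/-- derivative of the remainder along a direction transversal to the `ε` -/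
theorem der_Rs' {D : Derivation K A A} (hW : ∀ n, ∀ f ∈ Z.Wt n, π f ∈ W0 n)
    (hε : ∀ b, π (Z.ε b) = 0) (hD : ∀ b, π (D (Z.ε b)) = 0) {f : A} (hf : f ∈ Z.Rs) :
    π (D f) ∈ Z.Loc0 π W0 := by
  have e0 : Z.Eps ≤ Dk π D ⊥ := Ideal.span_le.2 (by rintro _ ⟨b, rfl⟩; exact ⟨hε b, hD b⟩)
  have e1 : ∀ J : Ideal A, Z.Eps * J ≤ Dk π D (Z.Loc0 π W0) := fun J =>
    mul_le_Dk (fun u hu v _ => by simp [show π u = 0 from (e0 hu).1])
      (fun u hu v _ => by simp [show π u = 0 from (e0 hu).1])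
      fun u hu v _ => by simp [show π (D u) = 0 from (e0 hu).2]
  have : Z.Rs ≤ Dk π D (Z.Loc0 π W0) :=
    sup_le (sup_le (iSup_le fun b => (Ideal.mul_mono_left (Ideal.span_mono (by simp))).trans (e1 _))
      (mul_le_Dk (fun u hu v _ => Ideal.mul_mem_right _ _ (pi_Loc hW hu))
        (fun u hu v _ => Ideal.mul_mem_right _ _ (pi_Loc hW hu))
        fun u _ v hv => Ideal.mul_mem_right _ _ (pi_Loc hW hv))) (e1 _)
  exact (this hf).2

/-- The data of step 2.  `Ψ` is the value of the action after step 1.  Generators `E a` are of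
three types: `Ea a` (coefficient of an auxiliary variable), Gaussian (`aX q`, read off from the
derivative `DX q`), or directly detected. -/
structure Two (Z : Zn A κ α ι) (π : A →ₐ[K] A0) (W0 : ℕ → Ideal A0) (H : Ideal A) (Ψ : A)
    (T0 : Ideal A0) (X : Type*) [Fintype X] [DecidableEq X] where
  fl : Fl W0
  bot : ∃ n, W0 n = ⊥
  aug : ∀ r : A0, ∃ c : K, r - algebraMap K A0 c ∈ W0 Z.μ
  hW : ∀ n, ∀ f ∈ Z.Wt n, π f ∈ W0 n
  hε : ∀ b, π (Z.ε b) = 0
  hE : ∀ b, π (Z.E b) ∈ W0 Z.μ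
  Ea : α → Prop
  D : α → Derivation K A A
  D0 : ∀ a, Ea a → ∀ b, b ≠ a → π (D a (Z.ε b)) = 0
  D1 : ∀ a, Ea a → π (D a (Z.ε a)) = 1
  DE : ∀ a, Ea a → ∀ b, π (D a (Z.E b)) ∈ W0 Z.μ
  DΨ : ∀ a, Ea a → W0 (Z.pa a - 3 * Z.γ) * Ideal.span {π (D a Ψ)} ≤ T0
  DH : ∀ a, Ea a → ∀ r ∈ H, W0 (Z.pa a - 3 * Z.γ) * Ideal.span {π (D a r)} ≤ T0
  aX : X → α
  pX : ∀ q, Z.pa (aX q) ≤ 3 * Z.γ
  DX : X → Derivation K A A
  X0 : ∀ q b, π (DX q (Z.ε b)) = 0
  XΨ : ∀ q, π (DX q Ψ) ∈ T0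
  XH : ∀ q, ∀ r ∈ H, π (DX q r) ∈ T0
  lam : X → A0 →ₗ[K] K
  Jm : Ideal A0
  lJ : ∀ q, ∀ f ∈ Jm, lam q f = 0
  J1 : ∀ b, b ∉ Set.range aX → π (Z.E b) ∈ Jm
  J2 : W0 Z.μ * W0 Z.μ ≤ Jm
  J3 : ∀ q, ∀ r ∈ H, π (DX q r) ∈ Jm
  un : IsUnit (Matrix.of fun q q' => lam q' (π (DX q Ψ))).det
  dir : ∀ a, ¬ Ea a → a ∉ Set.range aX → π (Z.E a) ∈ T0 ⊔ Z.At0 π W0 a

/-- **Step 2**: the located ideal is detected -/
theorem Ok.step2 [Fintype α] (h : Z.Ok) {H : Ideal A} {Ψ : A} {T0 : Ideal A0} {X : Type*}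
    [Fintype X] [DecidableEq X] (t : Z.Two π W0 H Ψ T0 X)
    (hΨ : Ψ - ∑ b, Z.ε b * Z.E b ∈ Z.Rs ⊔ H) : Z.Loc0 π W0 ≤ T0 := by
  classical
  have g := h.gap
  obtain ⟨n, hn⟩ := t.bot
  let E0 : α → A0 := fun a => π (Z.E a)
  let Q : α → Ideal A0 := fun a => T0.colon (W0 (Z.pa a - 3 * Z.γ))
  have hQ : ∀ a, W0 (Z.pa a - 3 * Z.γ) * Q a ≤ T0 := fun a => Ideal.mul_le.2 fun u hu v hv => by
    rw [mul_comm]; exact Submodule.mem_colon.1 hv u hu
  have hQ' : ∀ a f, W0 (Z.pa a - 3 * Z.γ) * Ideal.span {f} ≤ T0 → f ∈ Q a := fun a f hf =>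
    Submodule.mem_colon.2 fun u hu => by
      rw [smul_eq_mul, mul_comm]
      exact hf (Ideal.mul_mem_mul hu (Ideal.mem_span_singleton_self _))
  have hT : ∀ a, T0 ≤ Q a := fun a f hf => hQ' a f
    (Ideal.mul_le_right.trans ((Ideal.span_singleton_le_iff_mem _).2 hf))
  let C1 : Ideal A0 := Cb W0 (fun b => Z.pa b - 3 * Z.γ + 1) E0
  let At : α → Ideal A0 := fun a =>
    Cb W0 (fun b => max (Z.pa b) (3 * Z.γ) - max (Z.pa a) (3 * Z.γ) + 1) E0
  have r1 : ∀ a, a ∉ Set.range t.aX → E0 a ∈ Q a ⊔ At a := fun a ha => by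
    have m1 : Z.At0 π W0 a ≤ At a := t.fl.Cb_mono fun b => by omega
    by_cases hE : t.Ea a
    · obtain ⟨r, hr, e⟩ := h.row t.fl t.hW t.hε (t.D0 a hE) (t.D1 a hE)
        (fun b => ⟨t.hE b, t.DE a hE b⟩) hΨ
      have := sub_mem (Ideal.mem_sup_left (T := At a) (sub_mem (hQ' a _ (t.DΨ a hE))
        (hQ' a _ (t.DH a hE r hr)))) (Ideal.mem_sup_right (m1 e))
      simpa using this
    · exact sup_le_sup (hT a) m1 (t.dir a hE ha)
  let N' : Ideal A0 := ⨆ (b) (_ : b ∉ Set.range t.aX), W0 (Z.pa b - 3 * Z.γ) * Ideal.span {E0 b}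
  let N : Ideal A0 := N' ⊔ W0 Z.μ * Z.Loc0 π W0
  have hL : Z.Loc0 π W0 ≤ W0 Z.μ :=
    Cb_le_span.trans (Ideal.span_le.2 (by rintro _ ⟨b, rfl⟩; exact t.hE b))
  have hNJ : N ≤ t.Jm := sup_le (iSup₂_le fun b hb => Ideal.mul_le_right.trans
    ((Ideal.span_singleton_le_iff_mem _).2 (t.J1 b hb))) ((Ideal.mul_mono_right hL).trans t.J2)
  have hN : N ≤ T0 ⊔ C1 := by
    refine sup_le (iSup₂_le fun b hb => ?_) (le_sup_of_le_right (t.fl.mul_Cb fun b => by omega))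
    refine (Ideal.mul_mono_right ((Ideal.span_singleton_le_iff_mem _).2 (r1 b hb))).trans ?_
    rw [Ideal.mul_sup]
    exact sup_le_sup (hQ b) (t.fl.mul_Cb fun b => by omega)
  have hS : ∀ f ∈ Z.Loc0 π W0, ∃ b : X → K, f - ∑ q, b q • E0 (t.aX q) ∈ N := fun f hf => by
    induction hf using Submodule.iSup_induction' with
    | mem a f hf =>
      by_cases ha : a ∈ Set.range t.aX
      · obtain ⟨q, rfl⟩ := ha
        obtain ⟨u, hu, rfl⟩ := Ideal.mem_mul_span_singleton.1 hf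
        obtain ⟨c, hc⟩ := t.aug u
        refine ⟨Pi.single q c, Ideal.mem_sup_right ?_⟩
        have e1 : ∑ q', (Pi.single q c : X → K) q' • E0 (t.aX q') = c • E0 (t.aX q) := by
          simp [Pi.single_apply]
        have e2 : u * E0 (t.aX q) - c • E0 (t.aX q) = (u - algebraMap K A0 c) * E0 (t.aX q) := by
          rw [Algebra.smul_def, sub_mul]
        rw [e1]
        exact e2 ▸ Ideal.mul_mem_mul hc (t.fl.span_le_Cb (g := fun a => Z.pa a - 3 * Z.γ)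
          (x := E0) (Nat.sub_eq_zero_of_le (t.pX q)) (Ideal.mem_span_singleton_self _))
      · exact ⟨0, by simpa using Ideal.mem_sup_left (Ideal.mem_iSup_of_mem a
          (Ideal.mem_iSup_of_mem ha hf))⟩
    | zero => exact ⟨0, by simp⟩
    | add f f' _ _ h1 h2 =>
      obtain ⟨b, hb⟩ := h1
      obtain ⟨b', hb'⟩ := h2
      refine ⟨b + b', ?_⟩
      convert add_mem hb hb' using 1
      simp only [Pi.add_apply, add_smul, Finset.sum_add_distrib]
      ring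
  obtain ⟨f, hf, r, hr, e⟩ := Submodule.mem_sup.1 hΨ
  have eG : ∀ q, π (t.DX q f) = π (t.DX q Ψ) - π (t.DX q r) := fun q => by
    have e2 : Ψ = f + r + ∑ b, Z.ε b * Z.E b := by rw [e]; ring
    have e3 := congrArg (fun x => π (t.DX q x)) e2
    simp only [map_add, map_sum, Derivation.leibniz, smul_eq_mul, map_mul, t.hε, t.X0, zero_mul,
      mul_zero, add_zero, Finset.sum_const_zero] at e3
    rw [e3]; ring
  have r2 : ∀ q, E0 (t.aX q) ∈ T0 ⊔ C1 := fun q => by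
    have := gauss (g := fun q => E0 (t.aX q)) (G := fun q => π (t.DX q f)) t.lam
      (fun q f hf => t.lJ q f (hNJ hf)) (fun q => hS _ (der_Rs' t.hW t.hε (t.X0 q) hf))
      (by simpa only [eG, map_sub, fun q q' => t.lJ q' _ (t.J3 q r hr), sub_zero] using t.un) q
    refine (sup_le (le_sup_of_le_left (Ideal.span_le.2 ?_)) hN : _ ≤ _) this
    rintro _ ⟨q, rfl⟩
    simp only [eG]
    exact sub_mem (t.XΨ q) (t.XH q r hr)
  have key := t.fl.neu hn (pa := fun a => max (Z.pa a) (3 * Z.γ)) (E := E0) (Q := Q) (fun a => by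
    by_cases ha : a ∈ Set.range t.aX
    · obtain ⟨q, rfl⟩ := ha
      exact sup_le_sup (hT _) (t.fl.Cb_mono fun b => by omega) (r2 q)
    · exact r1 a ha) (3 * Z.γ)
  refine (t.fl.Cb_mono fun b => by omega).trans (key.trans (iSup_le fun a => le_trans ?_ (hQ a)))
  exact Ideal.mul_mono_left (t.fl.anti (by omega))

end Zn

end Two

section One
variable {p : ℕ} {K : Type} [CommRing K] [Fact p.Prime] [Fact ((p : K) = 0)] {σ : Type} [Fintype σ]
  {A : Type*} [CommRing A] [Algebra K A] {κ α ι : Type*}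

/-- the Jacobian ideal of the slot `e` -/
def Ls (Sh : σ → Prop) (sl : σ → ι) (d : σ → A) (e : ι) : Ideal A :=
  Ideal.span (d '' {x | Sh x ∧ sl x = e})

/-- The data of step 1: `Sh` = shiftable variables, `sl` their slots, `S x` = allowed shifts. -/
structure One (Z : Zn A κ α ι) (H : Ideal A) (Φ : O p K σ) (φ : O p K σ →ₐ[K] A) (Sh : σ → Prop)
    (sl : σ → ι) (S : σ → Ideal A) : Prop where
  pw : ∀ x ∈ Z.m, x ^ p = 0
  loc : ∀ x, φ (z x) ∈ Z.m
  jm : ∀ x, Sh x → φ (pd x Φ) ∈ Z.m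
  w1 : ∀ e, Z.IK e ≤ Ls Sh sl (fun x => φ (pd x Φ)) e ⊔ H
  w2 : ∀ x, Sh x → φ (pd x Φ) ∈ Z.m * Ls Sh sl (fun x => φ (pd x Φ)) (sl x) ⊔ S x
  tot : ∀ x x', Sh x → Sh x' → sl x = sl x' → S x ≤ S x' ∨ S x' ≤ S x
  hes : ∀ x x', Sh x → Sh x' → sl x = sl x' → pd x (pd x' Φ) ∈ mx
  sep : ∀ x x', Sh x → Sh x' → sl x ≠ sl x' → pd x (pd x' Φ) = 0

open Classical in
omit [Fintype σ] in
theorem Ls_eq (Sh : σ → Prop) (sl : σ → ι) (d : σ → A) (e : ι) :
    Lj (fun x => if Sh x ∧ sl x = e then ⊤ else ⊥) d = Ls Sh sl d e := by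
  refine le_antisymm (iSup_le fun x => ?_) (Ideal.span_le.2 ?_)
  · by_cases hx : Sh x ∧ sl x = e
    · exact Ideal.mul_le_right.trans (Ideal.span_mono (Set.singleton_subset_iff.2 ⟨x, hx, rfl⟩))
    · simp [if_neg hx]
  · rintro _ ⟨x, hx, rfl⟩
    refine le_Lj _ d x ?_
    rw [if_pos (show Sh x ∧ sl x = e from hx), Ideal.top_mul]
    exact Ideal.mem_span_singleton_self _

/-- **Step 1** for all slots at once -/
theorem One.step1 [Fintype α] {Z : Zn A κ α ι} (hZ : Z.Ok) {H : Ideal A} {Φ : O p K σ}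
    {φ : O p K σ →ₐ[K] A} {Sh : σ → Prop} {sl : σ → ι} {S : σ → Ideal A}
    (h : One Z H Φ φ Sh sl S) (hP : φ Φ - ∑ b, Z.ε b * Z.E b ∈ Z.Qd ⊔ Z.Eps * Z.Eps ⊔ H) :
    ∃ ψ : O p K σ →ₐ[K] A, (∀ x, ¬ Sh x → ψ (z x) = φ (z x)) ∧
      (∀ x, ψ (z x) - φ (z x) ∈ Ls Sh sl (fun x => φ (pd x Φ)) (sl x) ⊓ S x) ∧
      ψ Φ - ∑ b, Z.ε b * Z.E b ∈ Z.Rs ⊔ H := by
  classical
  have hm := hZ.nil
  have sq0 : ∀ e, Ls Sh sl (fun x => φ (pd x Φ)) e * Ls Sh sl (fun x => φ (pd x Φ)) e ≤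
      Lj (fun x => (if Sh x then Ls Sh sl (fun x => φ (pd x Φ)) (sl x) else ⊥) ⊓ S x)
        fun x => φ (pd x Φ) := fun e => by
    by_cases h0 : (⊤ : Ideal A) = ⊥
    · exact le_top.trans (h0.le.trans bot_le)
    have hi : ∀ x, (if Sh x ∧ sl x = e then (⊤ : Ideal A) else ⊥) = ⊤ → Sh x ∧ sl x = e :=
      fun x hx => by_contra fun hn => h0 (by rw [if_neg hn] at hx; exact hx.symm)
    have st : St Z.m (fun x => if Sh x ∧ sl x = e then ⊤ else ⊥) S fun x => φ (pd x Φ) := by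
      refine ⟨fun x => ?_, fun x x' hx hx' =>
        h.tot x x' (hi x hx).1 (hi x' hx').1 ((hi x hx).2.trans (hi x' hx').2.symm)⟩
      by_cases hx : Sh x ∧ sl x = e
      · refine Or.inl ⟨if_pos hx, ?_⟩
        rw [Ls_eq, ← hx.2]; exact h.w2 x hx.1
      · exact Or.inr (by simp [if_neg hx])
    have := st.sq hm
    rw [Ls_eq] at this
    refine this.trans (iSup_mono fun x => Ideal.mul_mono_left (inf_le_inf_right _ ?_))
    by_cases hx : Sh x ∧ sl x = e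
    · simp [hx]
    · simp [if_neg hx]
  have hLm : ∀ e, Ls Sh sl (fun x => φ (pd x Φ)) e ≤ Z.m := fun e =>
    Ideal.span_le.2 (by rintro _ ⟨x, hx, rfl⟩; exact h.jm x hx.1)
  have w1 := h.w1
  generalize Ls Sh sl (fun x => φ (pd x Φ)) = L at *
  let J : σ → Ideal A := fun x => (if Sh x then L (sl x) else ⊥) ⊓ S x
  have hJ : ∀ x, J x ≤ L (sl x) := fun x => inf_le_left.trans (by split_ifs <;> simp)
  have sq : ∀ k e, Z.m ^ k * (L e * L e) ≤ EE (fun x => Z.m ^ k * J x) (fun x => φ (pd x Φ)) H :=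
    fun k e => by
    refine (Ideal.mul_mono_right (sq0 e)).trans ?_
    rw [Lj, Ideal.mul_iSup]
    refine iSup_le fun x => ?_
    rw [← mul_assoc]
    exact le_EE (fun x => Z.m ^ k * J x) (fun x => φ (pd x Φ)) H x
  have h1 : Z.Qd ⊔ Z.Eps * Z.Eps ⊔ H ≤ EE (fun x => Z.m ^ 0 * J x) (fun x => φ (pd x Φ)) H ⊔ Z.Rs := by
    refine sup_le (sup_le (hZ.Qd_le.trans (sup_le_sup_right (iSup_le fun e => ?_) _))
      (le_sup_of_le_right Zn.Eps_sq)) (le_sup_of_le_left (H_le_EE _ _ _))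
    refine (Ideal.mul_mono (w1 e) (w1 e)).trans ?_
    rw [Ideal.sup_mul, Ideal.mul_sup]
    exact sup_le (sup_le (by simpa using sq 0 e) (Ideal.mul_le_right.trans (H_le_EE _ _ _)))
      (Ideal.mul_le_left.trans (H_le_EE _ _ _))
  obtain ⟨P, hP1, R, hR, e⟩ := Submodule.mem_sup.1 (h1 hP)
  obtain ⟨N, hN⟩ := id hm
  obtain ⟨ψ, h1, h2⟩ := toug_w (GO := triv K (O p K σ)) (G := triv K A) (d := fun _ => ())
    (D := ()) (W := Φ) (fun _ => rfl) rfl (I := fun _ => Z.m) (fun _ => h.pw)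
    (J := fun k x => Z.m ^ k * J x) (H := H) (fun _ _ => triv_id _) (triv_id _)
    (fun k x => by rw [pow_zero, one_mul]; exact Ideal.mul_le_right)
    (fun x => Ideal.mul_le_right.trans ((hJ x).trans (hLm _)))
    (φ := φ) (fun u => ⟨rfl, h.loc u⟩) (fun k x y => by
      by_cases hx : Sh x
      swap
      · simp [J, hx]
      by_cases hy : Sh y
      swap
      · simp [J, hy]
      by_cases hs : sl x = sl y
      swap
      · rw [h.sep x y hx hy hs, Car_zero]; simp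
      refine le_trans ?_ (sq (k + 1) (sl x))
      calc Z.m ^ k * J x * (Z.m ^ 0 * J y) * Car (fun _ => Z.m) (pd x (pd y Φ))
          ≤ Z.m ^ k * L (sl x) * (Z.m ^ 0 * L (sl x)) * Z.m :=
            Ideal.mul_mono (Ideal.mul_mono (Ideal.mul_mono_right (hJ x))
              (Ideal.mul_mono_right (hs ▸ hJ y))) (Car_mx (fun _ => le_rfl) (h.hes x y hx hy hs))
        _ = Z.m ^ (k + 1) * (L (sl x) * L (sl x)) := by ring)
    (P := -P) rfl (neg_mem hP1) N
  have h3 : EE (fun x => Z.m ^ N * J x) (fun x => φ (pd x Φ)) H ≤ H :=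
    sup_le (iSup_le fun x => by simp [hN]) le_rfl
  have h4 : ∀ x, ψ (z x) - φ (z x) ∈ J x := fun x => by simpa using (h1 x).2
  refine ⟨ψ, fun x hx => ?_, fun x => ⟨hJ x (h4 x), (h4 x).2⟩, ?_⟩
  · have := (h4 x).1
    rwa [if_neg hx, SetLike.mem_coe, Ideal.mem_bot, sub_eq_zero] at this
  · convert Submodule.add_mem_sup hR (h3 h2) using 1
    linear_combination -e

omit [Fact p.Prime] in
/-- chain rule after `π` -/
theorem pi_chain {A0 : Type*} [CommRing A0] [Algebra K A0] (π : A →ₐ[K] A0) (D : Derivation K A A)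
    (ψ : O p K σ →ₐ[K] A) (Φ : O p K σ) :
    π (D (ψ Φ)) = ∑ u, π (D (ψ (z u))) * π (ψ (pd u Φ)) := by
  rw [chain, map_sum]
  exact Finset.sum_congr rfl fun u _ => by rw [smul_eq_mul, map_mul, mul_comm]

end One

end N255.Sl

end
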